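import Mathlib.Analysis.VonNeumannAlgebra.Basic
import Mathlib.Analysis.Complex.Order
import Mathlib.Algebra.Star.StarProjection
import Mathlib.Data.ENat.Lattice
import Mathlib.Order.Filter.Ultrafilter.Basic

/-!
The paving problem of Popa and Vaes, and ultraproducts of von Neumann algebras with normal states.
-/

namespace Vale.Agent.N078

open scoped ComplexOrder
open Filter Topology

section one

variable {H : Type*} [NormedAddCommGroup H] [InnerProductSpace ℂ H] [CompleteSpace H]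

/-- `A` is a maximal abelian self-adjoint subalgebra of `M`. -/
def IsMASA (M : VonNeumannAlgebra H) (A : StarSubalgebra ℂ (H →L[ℂ] H)) : Prop :=
  Maximal (fun B : StarSubalgebra ℂ (H →L[ℂ] H) =>
    (∀ x ∈ B, x ∈ M) ∧ ∀ x ∈ B, ∀ y ∈ B, x * y = y * x) A

/-- `p` is a partition in `A`: mutually orthogonal projections of `A` with sum `1`. -/
def IsPartition (A : StarSubalgebra ℂ (H →L[ℂ] H)) {r : ℕ} (p : Fin r → (H →L[ℂ] H)) : Prop :=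
  (∀ i, p i ∈ A ∧ IsStarProjection (p i)) ∧ (∀ i j, i ≠ j → p i * p j = 0) ∧ ∑ i, p i = 1

/-- `x` is `(ε, r)` so-pavable over `A` in `M`. -/
def SOPavable (M : VonNeumannAlgebra H) (A : StarSubalgebra ℂ (H →L[ℂ] H)) (x : H →L[ℂ] H)
    (ε : ℝ) (r : ℕ) : Prop :=
  ∀ (F : Finset H) (δ : ℝ), 0 < δ → ∃ (p : Fin r → (H →L[ℂ] H)) (a q : H →L[ℂ] H),
    IsPartition A p ∧ a ∈ A ∧ IsSelfAdjoint a ∧ ‖a‖ ≤ ‖x‖ ∧ q ∈ M ∧ IsStarProjection q ∧
      (∀ ξ ∈ F, ‖(1 - q) ξ‖ < δ) ∧ ‖q * (∑ i, p i * x * p i - a) * q‖ ≤ ε * ‖x‖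

/-- `n_{A ⊆ M}(ε)`: the least `r ≥ 1` such that every self-adjoint `x ∈ M` is `(ε, r)` so-pavable
(`⊤` if there is none). -/
noncomputable def pavingNumber (M : VonNeumannAlgebra H) (A : StarSubalgebra ℂ (H →L[ℂ] H))
    (ε : ℝ) : ℕ∞ :=
  ⨅ r ∈ {r : ℕ | 1 ≤ r ∧ ∀ x ∈ M, IsSelfAdjoint x → SOPavable M A x ε r}, (r : ℕ∞)

/-- The normal functional `x ↦ ∑ ⟪ξ k, x (ξ k)⟫`; a normal state if `∑ ‖ξ k‖ ^ 2 = 1`. -/
noncomputable def vecState (ξ : ℕ → H) (x : H →L[ℂ] H) : ℂ := ∑' k, inner ℂ (ξ k) (x (ξ k))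

/-- `M` is a factor of type II one: trivial centre, arbitrarily many orthogonal nonzero projections,
a normal tracial state. -/
def IsII1Factor (M : VonNeumannAlgebra H) : Prop :=
  (∀ x ∈ M, (∀ y ∈ M, x * y = y * x) → ∃ c : ℂ, x = c • (1 : H →L[ℂ] H)) ∧
    (∀ n : ℕ, ∃ p : Fin n → (H →L[ℂ] H), (∀ i, p i ∈ M ∧ IsStarProjection (p i) ∧ p i ≠ 0) ∧
      ∀ i j, i ≠ j → p i * p j = 0) ∧
    ∃ ξ : ℕ → H, HasSum (fun k => ‖ξ k‖ ^ 2) 1 ∧
      ∀ x ∈ M, ∀ y ∈ M, vecState ξ (x * y) = vecState ξ (y * x)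

end one

variable {H : Type*} [NormedAddCommGroup H] [InnerProductSpace ℂ H] [CompleteSpace H]

/-- Bounded sequences `x` with `x n ∈ S n`. -/
def bddSeq (S : ℕ → Set (H →L[ℂ] H)) : Set (ℕ → (H →L[ℂ] H)) :=
  {x | (∀ n, x n ∈ S n) ∧ ∃ C, ∀ n, ‖x n‖ ≤ C}

variable (ω : Ultrafilter ℕ) (M : ℕ → VonNeumannAlgebra H) (ξ : ℕ → ℕ → H)

/-- Bounded sequences in `∏ M n` which tend to `0` star-strongly along `ω`. -/
def nullSeq : Set (ℕ → (H →L[ℂ] H)) :=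
  {z | z ∈ bddSeq (fun n => M n) ∧
    Tendsto (fun n => vecState (ξ n) (star (z n) * z n + z n * star (z n))) ω (𝓝 0)}

/-- The multipliers of `nullSeq`; the ultraproduct is the quotient `multSeq / nullSeq`. -/
def multSeq : Set (ℕ → (H →L[ℂ] H)) :=
  {x | x ∈ bddSeq (fun n => M n) ∧
    ∀ z ∈ nullSeq ω M ξ, x * z ∈ nullSeq ω M ξ ∧ z * x ∈ nullSeq ω M ξ}

/-- The norm of the class of `x` in the ultraproduct (quotient of the supremum norm). -/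
noncomputable def ultraNorm (x : ℕ → (H →L[ℂ] H)) : ℝ :=
  sInf {c | ∃ z ∈ nullSeq ω M ξ, ∀ n, ‖x n - z n‖ ≤ c}

/-- `φ` induces a state of the ultraproduct: unital, positive on `multSeq`, zero on `nullSeq`. -/
def IsUltraState (φ : (ℕ → (H →L[ℂ] H)) →ₗ[ℂ] ℂ) : Prop :=
  φ 1 = 1 ∧ (∀ x ∈ multSeq ω M ξ, 0 ≤ φ (star x * x)) ∧ ∀ z ∈ nullSeq ω M ξ, φ z = 0

end Vale.Agent.N078
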