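import Vale.Agent.N078.Pave
import Mathlib.Topology.ContinuousMap.Weierstrass

/-!
Uniqueness of the extension of pure states in the ultraproduct.
-/

namespace Vale.Agent.N078

open scoped ComplexOrder
open Filter Topology

theorem zero_of_affine {w g : ℂ} (h : ∀ s : ℝ, 0 ≤ s * w + g) : w = 0 := by
  have h1 : ∀ s : ℝ, 0 ≤ s * w.re + g.re ∧ 0 = s * w.im + g.im := fun s => by
    simpa using Complex.nonneg_iff.1 (h s)
  have h2 : w.im = 0 := by linarith [(h1 0).2, (h1 1).2]
  have h3 : w.re = 0 := by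
    by_contra e
    have := (h1 (-(g.re + 1) / w.re)).1
    rw [div_mul_cancel₀ _ e] at this
    linarith
  exact Complex.ext h3 h2

variable {H : Type*} [NormedAddCommGroup H] [InnerProductSpace ℂ H] [CompleteSpace H]
variable {ω : Ultrafilter ℕ} {M : ℕ → VonNeumannAlgebra H} {ξ : ℕ → ℕ → H}

theorem spec_sub {y : Sq H} {C : ℝ} (hC : ∀ n, ‖y n‖ ≤ C) (n : ℕ) {t : ℝ}
    (ht : t ∈ spectrum ℝ (y n)) : t ∈ Set.Icc (-C) C := by
  have h := spectrum.norm_le_norm_mul_of_mem ht
  have h1 : ‖(1 : H →L[ℂ] H)‖ ≤ 1 := ContinuousLinearMap.norm_id_le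
  exact abs_le.1 (h.trans ((mul_le_of_le_one_right (norm_nonneg _) h1).trans (hC n)))

variable (hξ : ∀ n, HasSum (fun k => ‖ξ n k‖ ^ 2) 1)
include hξ

theorem mult_aeval {y : Sq H} (hy : y ∈ multSeq ω M ξ) (p : Polynomial ℝ) :
    (fun n => Polynomial.aeval (y n) p) ∈ multSeq ω M ξ := by
  induction p using Polynomial.induction_on with
  | C r =>
    have := mult_smul hξ (r : ℂ) (mult_one (ω := ω) (M := M) (ξ := ξ))
    convert this using 1
    funext n
    simp [Algebra.algebraMap_eq_smul_one]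
  | add p q hp hq =>
    convert mult_add hξ hp hq using 1
    funext n
    simp
  | monomial m r h =>
    convert mult_mul h hy using 1
    funext n
    simp [pow_succ, mul_assoc]

theorem mult_cfc {y : Sq H} (hy : y ∈ multSeq ω M ξ) (hs : IsSelfAdjoint y) {f : ℝ → ℝ}
    (hf : Continuous f) : (fun n => cfc f (y n)) ∈ multSeq ω M ξ := by
  obtain ⟨C, -, hC⟩ := bdd_nonneg hy.1
  have key : ∀ δ : ℝ, 0 < δ → ∃ z ∈ multSeq ω M ξ, ∀ n, ‖cfc f (y n) - z n‖ ≤ δ := by
    intro δ hδ
    obtain ⟨p, hp⟩ := exists_polynomial_near_of_continuousOn (-C) C f hf.continuousOn δ hδ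
    refine ⟨_, mult_aeval hξ hy p, fun n => ?_⟩
    have hn : IsSelfAdjoint (y n) := congrFun hs.star_eq n
    rw [← cfc_polynomial p (y n), ← cfc_sub f p.eval (y n) hf.continuousOn
      p.continuous.continuousOn]
    refine norm_cfc_le hδ.le fun t ht => ?_
    rw [Real.norm_eq_abs, abs_sub_comm]
    exact (hp t (spec_sub hC n ht)).le
  refine mult_approx hξ ⟨fun n => ?_, ?_⟩ key
  · refine (vn_closed (M n)).closure_subset (Metric.mem_closure_iff.2 fun δ hδ => ?_)
    obtain ⟨z, h1, h2⟩ := key (δ / 2) (by positivity)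
    exact ⟨z n, h1.1.1 n, by rw [dist_eq_norm]; linarith [h2 n]⟩
  · obtain ⟨z, h1, h2⟩ := key 1 one_pos
    obtain ⟨D, hD⟩ := h1.1.2
    exact ⟨D + 1, fun n => by linarith [norm_sub_norm_le (cfc f (y n)) (z n), h2 n, hD n]⟩

variable {φ ψ : Sq H →ₗ[ℂ] ℂ}

theorem state_le (hφ : IsUltraState ω M ξ φ) {y : Sq H} (hy : y ∈ multSeq ω M ξ)
    (hs : IsSelfAdjoint y) {c : ℝ} (hc : ∀ n, ‖y n‖ ≤ c) : 0 ≤ c - φ y := by
  have h := hφ.2.1 _ (mult_cfc hξ hy hs (f := fun t => Real.sqrt (c - t)) (by fun_prop))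
  have e : star (fun n => cfc (fun t => Real.sqrt (c - t)) (y n) : Sq H) *
      (fun n => cfc (fun t => Real.sqrt (c - t)) (y n)) = (c : ℂ) • (1 : Sq H) - y := by
    funext n
    have hn : IsSelfAdjoint (y n) := congrFun hs.star_eq n
    have h1 : IsSelfAdjoint (cfc (fun t => Real.sqrt (c - t)) (y n)) := cfc_predicate _ _
    rw [Pi.mul_apply, Pi.star_apply, h1.star_eq, ← cfc_mul _ _ (y n) (by fun_prop) (by fun_prop),
      cfc_congr (g := fun t => c - t) fun t ht =>
        Real.mul_self_sqrt (sub_nonneg.2 (spec_sub hc n ht).2),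
      cfc_sub (fun _ => c) (fun t => t) (y n), cfc_const c (y n), cfc_id' ℝ (y n)]
    simp [Algebra.algebraMap_eq_smul_one]
  rwa [e, map_sub, map_smul, hφ.1, smul_eq_mul, mul_one] at h

theorem state_norm (hφ : IsUltraState ω M ξ φ) {y : Sq H} (hy : y ∈ multSeq ω M ξ)
    (hs : IsSelfAdjoint y) : ‖φ y‖ ≤ ultraNorm ω M ξ y := by
  refine le_of_forall_pos_le_add fun δ hδ => ?_
  obtain ⟨z, h1, h2, h3⟩ := exists_near (ω := ω) hξ hy.1 hs hδ
  have h4 := mult_sub hξ hy (null_mult hξ h1)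
  have h5 := state_le hξ hφ h4 (hs.sub h2) h3
  have h6 := state_le hξ hφ (mult_sub hξ (null_mult hξ h1) hy) (h2.sub hs)
    (c := ultraNorm ω M ξ y + δ) fun n => by rw [Pi.sub_apply, norm_sub_rev]; exact h3 n
  rw [map_sub, hφ.2.2 z h1] at h5 h6
  generalize ultraNorm ω M ξ y + δ = c at *
  rw [Complex.nonneg_iff] at h5 h6
  simp only [sub_zero, zero_sub, Complex.sub_re, Complex.ofReal_re, Complex.sub_im,
    Complex.ofReal_im, Complex.neg_re] at h5 h6
  rw [show φ y = ((φ y).re : ℂ) from Complex.ext rfl (by simp; linarith [h5.2]), Complex.norm_real,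
    Real.norm_eq_abs, abs_le]
  constructor <;> linarith [h5.1, h6.1]

theorem state_null (hφ : IsUltraState ω M ξ φ) {u v : Sq H} (hu : u ∈ multSeq ω M ξ)
    (hv : v ∈ multSeq ω M ξ) (h : φ (star u * u) = 0) :
    φ (star u * v) = 0 ∧ φ (star v * u) = 0 := by
  have key : ∀ t : ℂ, 0 ≤ star t * φ (star u * v) + t * φ (star v * u) + φ (star v * v) := by
    intro t
    have := hφ.2.1 _ (mult_add hξ (mult_smul hξ t hu) hv)
    simp only [star_add, star_smul, add_mul, mul_add, smul_mul_assoc, mul_smul_comm, map_add,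
      map_smul, h, smul_eq_mul, mul_zero, zero_add] at this
    convert this using 1
    ring
  have h1 : φ (star u * v) + φ (star v * u) = 0 :=
    zero_of_affine (g := φ (star v * v)) fun s => by
      convert key s using 1
      simp only [Complex.star_def, Complex.conj_ofReal]
      ring
  have h2 : Complex.I * (φ (star v * u) - φ (star u * v)) = 0 :=
    zero_of_affine (g := φ (star v * v)) fun s => by
      convert key (s * Complex.I) using 1
      simp only [Complex.star_def, map_mul, Complex.conj_ofReal, Complex.conj_I]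
      ring
  have h3 := (mul_eq_zero.1 h2).resolve_left Complex.I_ne_zero
  constructor
  · linear_combination (h1 - h3) / 2
  · linear_combination (h1 + h3) / 2

theorem state_pinch (hφ : IsUltraState ω M ξ φ) {p x : Sq H} (hp : p ∈ multSeq ω M ξ)
    (hx : x ∈ multSeq ω M ξ) (h1 : star p = p) (h2 : p * p = p) (h : φ p * φ p = φ p) :
    φ (p * x * p) = φ p * φ x := by
  rcases (IsIdempotentElem.iff_eq_zero_or_one (p := φ p)).1 h with h | h
  · have := (state_null hξ hφ hp (mult_mul hx hp) (by rwa [h1, h2])).1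
    rw [h1, ← mul_assoc] at this
    rw [this, h, zero_mul]
  · have hq := mult_sub hξ mult_one hp
    have e1 : star (1 - p) = 1 - p := by rw [star_sub, star_one, h1]
    have e2 : φ (star (1 - p) * (1 - p)) = 0 := by
      rw [e1, sub_mul, one_mul, mul_sub, mul_one, h2, sub_self, sub_zero, map_sub, hφ.1, h,
        sub_self]
    have a1 := (state_null hξ hφ hq hx e2).1
    have a2 := (state_null hξ hφ hq (mult_star hξ (mult_mul hp hx)) e2).2
    rw [e1, sub_mul, one_mul, map_sub] at a1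
    rw [star_star, mul_sub, mul_one, map_sub] at a2
    rw [h]
    linear_combination -a1 - a2

variable {A : ℕ → StarSubalgebra ℂ (H →L[ℂ] H)}

theorem ultra_ks (hω : (ω : Filter ℕ) ≤ cofinite) (hA : ∀ n, ∀ a ∈ A n, a ∈ M n)
    (hc : ∀ n, ∀ a ∈ A n, ∀ y ∈ M n, vecState (ξ n) (a * y) = vecState (ξ n) (y * a))
    (hP : ∀ ε : ℝ, 0 < ε → ε < 1 → ∃ r, ∀ n, JP (M n) (A n) 1 ε r)
    (hφ : IsUltraState ω M ξ φ) (hψ : IsUltraState ω M ξ ψ)
    (hm : ∀ a ∈ bddSeq fun n => (A n : Set (H →L[ℂ] H)),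
      ∀ b ∈ bddSeq fun n => (A n : Set (H →L[ℂ] H)), φ (a * b) = φ a * φ b)
    (he : ∀ a ∈ bddSeq fun n => (A n : Set (H →L[ℂ] H)), φ a = ψ a) :
    ∀ x ∈ multSeq ω M ξ, φ x = ψ x := by
  have key : ∀ x ∈ multSeq ω M ξ, IsSelfAdjoint x → φ x = ψ x := by
    intro x hx hs
    have c0 := un_nonneg (ω := ω) (M := M) (ξ := ξ) x
    rw [← sub_eq_zero, ← norm_le_zero_iff]
    refine le_of_forall_pos_le_add fun δ hδ => ?_
    obtain ⟨ε, e0, e1, e2⟩ : ∃ ε : ℝ, 0 < ε ∧ ε < 1 ∧ 2 * (ε * ultraNorm ω M ξ x) ≤ δ := by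
      refine ⟨min (1 / 2) (δ / (2 * ultraNorm ω M ξ x + 1)), by positivity,
        (min_le_left _ _).trans_lt (by norm_num), ?_⟩
      have := min_le_right (1 / 2) (δ / (2 * ultraNorm ω M ξ x + 1))
      rw [le_div_iff₀ (by positivity)] at this
      have h0 : 0 ≤ min (1 / 2) (δ / (2 * ultraNorm ω M ξ x + 1)) := by positivity
      nlinarith
    obtain ⟨r, hr⟩ := hP ε e0 e1
    obtain ⟨p, a, h1, h2⟩ := ultra_pave hξ hω hA hc e0 hr (fun _ => x) fun _ => ⟨hx, hs⟩
    obtain ⟨h2, h3, -, h4⟩ := h2 0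
    have hp : ∀ i, p i ∈ bddSeq fun n => (A n : Set (H →L[ℂ] H)) := fun i =>
      ⟨fun n => ((h1 n).1 i).1, 1, fun n => IsStarProjection.norm_le _ ((h1 n).1 i).2⟩
    have hp' := fun i => a_mult (ω := ω) hξ hA hc (hp i)
    have p1 : ∀ i, star (p i) = p i := fun i =>
      funext fun n => ((h1 n).1 i).2.isSelfAdjoint.star_eq
    have p2 : ∀ i, p i * p i = p i := fun i => funext fun n => ((h1 n).1 i).2.isIdempotentElem
    have p3 : ∑ i, p i = 1 := funext fun n => by rw [Finset.sum_apply]; exact (h1 n).2.2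
    have p4 : ∀ i, φ (p i) * φ (p i) = φ (p i) := fun i => by rw [← hm _ (hp i) _ (hp i), p2]
    have hw := mult_sub hξ (mult_sum hξ Finset.univ fun i => mult_mul (mult_mul (hp' i) hx) (hp' i))
      (a_mult hξ hA hc h2)
    have hs' : IsSelfAdjoint (∑ i, p i * x * p i - a 0) := by
      refine IsSelfAdjoint.sub ?_ h3
      simp only [IsSelfAdjoint, star_sum, star_mul, p1, hs.star_eq, mul_assoc]
    have b : ∀ χ : Sq H →ₗ[ℂ] ℂ, IsUltraState ω M ξ χ → (∀ i, χ (p i) * χ (p i) = χ (p i)) →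
        ‖χ x - χ (a 0)‖ ≤ ε * ultraNorm ω M ξ x := by
      intro χ hχ h
      have := (state_norm hξ hχ hw hs').trans h4
      rwa [map_sub, map_sum, Finset.sum_congr rfl fun i _ =>
        state_pinch hξ hχ (hp' i) hx (p1 i) (p2 i) (h i), ← Finset.sum_mul, ← map_sum, p3, hχ.1,
        one_mul] at this
    have b1 := b φ hφ p4
    have b2 := b ψ hψ fun i => by rw [← he _ (hp i), p4]
    have b3 := norm_sub_le (φ x - φ (a 0)) (ψ x - ψ (a 0))
    rw [he _ h2, sub_sub_sub_cancel_right] at b3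
    rw [he _ h2] at b1
    linarith
  intro x hx
  have h1 := key _ (mult_add hξ hx (mult_star hξ hx)) (IsSelfAdjoint.add_star_self x)
  have h2 := key _ (mult_smul hξ Complex.I (mult_sub hξ hx (mult_star hξ hx))) (by
    rw [IsSelfAdjoint, star_smul, star_sub, star_star, Complex.star_def, Complex.conj_I, neg_smul,
      ← smul_neg, neg_sub])
  simp only [map_add, map_smul, map_sub, smul_eq_mul] at h1 h2
  have h3 := mul_left_cancel₀ Complex.I_ne_zero h2
  linear_combination (h1 + h3) / 2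

end Vale.Agent.N078
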