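import Vale.Agent.N078.KS
import Vale.Agent.P078L.Br
import Vale.Agent.P078.H291.XMain

/-!
The link with the so-paving theorem.
-/

namespace Vale.Agent.N078

open Filter Topology

variable {H : Type*} [NormedAddCommGroup H] [InnerProductSpace ℂ H] [CompleteSpace H]
  {M : VonNeumannAlgebra H} {A : StarSubalgebra ℂ (H →L[ℂ] H)}

theorem IsMASA.max (hA : IsMASA M A) :
    Maximal (P078L.AbelianIn M.toStarSubalgebra) A.toNonUnitalStarSubalgebra := by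
  refine ⟨hA.prop, fun B hB hAB => ?_⟩
  exact hA.le_of_ge (y := B.toStarSubalgebra (hAB (one_mem A))) hB hAB

/-- The maximal abelian subalgebra as a von Neumann algebra. -/
noncomputable def IsMASA.vn (hA : IsMASA M A) : VonNeumannAlgebra H :=
  P078L.vn M.centralizer_centralizer hA.max

theorem IsMASA.so (hA : IsMASA M A) : P078.SO.IsMASA hA.vn M :=
  ⟨hA.prop.1, hA.prop.2, fun _ hx hc => P078L.mem_of_comm hA.max hx hc⟩

theorem JP.succ {k r : ℕ} {ε : ℝ} (h : JP M A k ε r) : JP M A k ε (r + 1) := by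
  intro x hx F δ hδ
  obtain ⟨p, a, q, ⟨h1, h2, h3⟩, h4, h5, h6, h7, h8⟩ := h x hx F δ hδ
  refine ⟨Fin.cons 0 p, a, q, ⟨fun i => ?_, fun i j hij => ?_, ?_⟩, h4, h5, h6, h7, fun j => ?_⟩
  · refine Fin.cases ?_ (fun i => ?_) i
    · exact ⟨zero_mem _, IsStarProjection.zero _⟩
    · exact h1 i
  · revert hij
    refine Fin.cases ?_ (fun i => ?_) i <;> refine Fin.cases ?_ (fun j => ?_) j <;> intro hij
    · simp
    · simp
    · simp
    · exact h2 i j fun e => hij (by rw [e])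
  · simp [Fin.sum_univ_succ, h3]
  · simpa [Fin.sum_univ_succ] using h8 j

theorem JP.mono {k r s : ℕ} {ε : ℝ} (h : JP M A k ε r) (hrs : r ≤ s) : JP M A k ε s := by
  induction hrs with
  | refl => exact h
  | step _ ih => exact ih.succ

theorem jp_of_masa (hA : IsMASA M A) {k : ℕ} (hk : 1 ≤ k) {ε : ℝ} (h0 : 0 < ε) (h1 : ε < 1) :
    JP M A k ε ⌈1200002 * (k : ℝ) / ε ^ 2⌉₊ := by
  have h := P078.WG.joint_upper_lin hA.so hk h0 h1
  generalize ⌈1200002 * (k : ℝ) / ε ^ 2⌉₊ = N at h ⊢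
  by_contra hc
  refine absurd (le_trans (le_iInf₂ fun r hr => ?_) h) (show ¬ ((N + 1 : ℕ) : ℕ∞) ≤ N by
    rw [Nat.cast_le]; omega)
  rw [Nat.cast_le]
  by_contra hr'
  refine hc (JP.mono (r := r) (fun x hx F δ hδ => ?_) (by omega))
  obtain ⟨p, a, q, a1, a2, a3, a4, a5⟩ := hr.2 x hx F δ hδ
  exact ⟨p, a, q, ⟨a1, a2, a3⟩, a4, a5⟩

theorem upper (hA : IsMASA M A) {ε : ℝ} (h0 : 0 < ε) (h1 : ε < 1) :
    ∃ n : ℕ, pavingNumber M A ε = n ∧ (n : ℝ) ≤ 1200003 / ε ^ 2 := by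
  obtain ⟨n, h2, h3⟩ := P078L.bound M.centralizer_centralizer hA.max h0 h1
  refine ⟨n, Eq.trans ?_ h2, h3⟩
  simp only [pavingNumber, P078L.pavingNumber, SOPavable, P078L.SOPavable, IsPartition, and_assoc]
  rfl

theorem lower (hA : IsMASA M A) (hM : IsII1Factor M) {ε : ℝ} (h0 : 0 < ε) :
    (⌈1 / ε ^ 2⌉₊ : ℕ∞) ≤ pavingNumber M A ε := by
  obtain ⟨a1, a2, ξ, a3, a4⟩ := hM
  have h := P078.WG.le_jointPavingNumber_factor hA.so ⟨a1, a2, ξ, a3.summable, ?_, a4⟩ le_rfl h0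
  · refine h.trans (le_iInf₂ fun r hr => iInf₂_le (f := fun (r : ℕ) (_ : r ∈ {r : ℕ | 1 ≤ r ∧
      ∀ x : Fin 1 → (H →L[ℂ] H), (∀ j, x j ∈ M ∧ IsSelfAdjoint (x j)) →
        P078.SO.JointlySOPavable M hA.vn x ε r}) => (r : ℕ∞)) r ⟨hr.1, fun x hx F δ hδ => ?_⟩)
    obtain ⟨p, a, q, ⟨b1, b2, b3⟩, b4, b5, b6, b7, b8, b9, b10⟩ := hr.2 (x 0) (hx 0).1 (hx 0).2 F δ hδ
    refine ⟨p, fun _ => a, q, b1, b2, b3, fun j => ?_, b7, b8, b9, fun j => ?_⟩ <;>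
      rw [Subsingleton.elim j 0]
    exacts [⟨b4, b5, b6⟩, b10]
  · by_contra hc
    push Not at hc
    simp only [hc, norm_zero, ne_eq, OfNat.ofNat_ne_zero, not_false_eq_true, zero_pow] at a3
    exact zero_ne_one (hasSum_zero.unique a3)

theorem ultra_pave' {ω : Ultrafilter ℕ} {M : ℕ → VonNeumannAlgebra H} {ξ : ℕ → ℕ → H}
    (hξ : ∀ n, HasSum (fun k => ‖ξ n k‖ ^ 2) 1) {A : ℕ → StarSubalgebra ℂ (H →L[ℂ] H)}
    (hω : (ω : Filter ℕ) ≤ cofinite) (hA : ∀ n, ∀ a ∈ A n, a ∈ M n)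
    (hc : ∀ n, ∀ a ∈ A n, ∀ y ∈ M n, vecState (ξ n) (a * y) = vecState (ξ n) (y * a))
    {k r : ℕ} {ε : ℝ} (hε : 0 < ε) (hP : ∀ n, JP (M n) (A n) k ε r) (x : Fin k → Sq H)
    (hx : ∀ j, x j ∈ multSeq ω M ξ ∧ ∀ n, IsSelfAdjoint (x j n)) :
    ∃ (p : Fin r → Sq H) (a : Fin k → Sq H), (∀ n, IsPartition (A n) fun i => p i n) ∧
      ∀ j, a j ∈ bddSeq (fun n => A n) ∧ (∀ n, IsSelfAdjoint (a j n)) ∧
        ultraNorm ω M ξ (a j) ≤ ultraNorm ω M ξ (x j) ∧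
        ultraNorm ω M ξ (fun n => ∑ i, p i n * x j n * p i n - a j n) ≤
          ε * ultraNorm ω M ξ (x j) := by
  obtain ⟨p, a, h1, h2⟩ := ultra_pave hξ hω hA hc hε hP x fun j => ⟨(hx j).1, funext (hx j).2⟩
  refine ⟨p, a, h1, fun j => ⟨(h2 j).1, congrFun (h2 j).2.1, (h2 j).2.2.1, ?_⟩⟩
  convert (h2 j).2.2.2 using 2
  funext n
  simp [Finset.sum_apply]

end Vale.Agent.N078
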