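import Vale.Agent.N078.Ultra

/-!
Norm paving in the ultraproduct from so-paving in the factors.
-/

namespace Vale.Agent.N078

open scoped ComplexOrder
open Filter Topology

section one

variable {H : Type*} [NormedAddCommGroup H] [InnerProductSpace ℂ H] [CompleteSpace H] {ξ : ℕ → H}

theorem exists_fin (hξ : HasSum (fun k => ‖ξ k‖ ^ 2) 1) {δ : ℝ} (hδ : 0 < δ) :
    ∃ (F : Finset H) (δ' : ℝ), 0 < δ' ∧ ∀ q : H →L[ℂ] H, IsStarProjection q →
      (∀ η ∈ F, ‖η - q η‖ < δ') → sq2 ξ (1 - q) ≤ δ := by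
  classical
  obtain ⟨K, hK⟩ := ((tendsto_sum_nat_add fun k => ‖ξ k‖ ^ 2).eventually_lt_const
    (half_pos hδ)).exists
  refine ⟨(Finset.range K).image ξ, min 1 (δ / 2 / (K + 1)), by positivity, fun q hq h => ?_⟩
  rw [sq2, ← (summ hξ _).sum_add_tsum_nat_add K]
  have h1 : ∑ i ∈ Finset.range K, ‖(1 - q) (ξ i)‖ ^ 2 ≤ K * (δ / 2 / (K + 1)) := by
    refine (Finset.sum_le_card_nsmul _ _ (δ / 2 / (K + 1)) fun i hi => ?_).trans (by simp)
    have a1 := h _ (Finset.mem_image_of_mem ξ hi)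
    have a2 := a1.le.trans (min_le_left _ _)
    have a3 := a1.le.trans (min_le_right _ _)
    change ‖ξ i - q (ξ i)‖ ^ 2 ≤ _
    nlinarith [norm_nonneg (ξ i - q (ξ i))]
  have h2 : ∑' i, ‖(1 - q) (ξ (i + K))‖ ^ 2 ≤ ∑' i, ‖ξ (i + K)‖ ^ 2 := by
    refine ((summable_nat_add_iff K).2 (summ hξ _)).tsum_le_tsum (fun i => ?_)
      ((summable_nat_add_iff K).2 hξ.summable)
    refine pow_le_pow_left₀ (norm_nonneg _) (((1 - q).le_opNorm _).trans ?_) 2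
    exact mul_le_of_le_one_left (norm_nonneg _) (IsStarProjection.norm_le _ hq.one_sub)
  have h3 : (K : ℝ) * (δ / 2 / (K + 1)) ≤ δ / 2 := by
    rw [← mul_div_assoc, div_le_iff₀ (by positivity)]
    linarith
  linarith

/-- Joint so-paving of all `k`-tuples. -/
def JP (M : VonNeumannAlgebra H) (A : StarSubalgebra ℂ (H →L[ℂ] H)) (k : ℕ) (ε : ℝ) (r : ℕ) :
    Prop :=
  ∀ x : Fin k → (H →L[ℂ] H), (∀ j, x j ∈ M ∧ IsSelfAdjoint (x j)) → ∀ (F : Finset H) (δ : ℝ),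
    0 < δ → ∃ (p : Fin r → (H →L[ℂ] H)) (a : Fin k → (H →L[ℂ] H)) (q : H →L[ℂ] H),
      IsPartition A p ∧ (∀ j, a j ∈ A ∧ IsSelfAdjoint (a j) ∧ ‖a j‖ ≤ ‖x j‖) ∧ q ∈ M ∧
      IsStarProjection q ∧ (∀ ξ ∈ F, ‖ξ - q ξ‖ < δ) ∧
      ∀ j, ‖q * (∑ i, p i * x j * p i - a j) * q‖ ≤ ε * ‖x j‖

end one

variable {H : Type*} [NormedAddCommGroup H] [InnerProductSpace ℂ H] [CompleteSpace H]
variable {ω : Ultrafilter ℕ} {M : ℕ → VonNeumannAlgebra H} {ξ : ℕ → ℕ → H}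

theorem un_bdd (x : Sq H) : BddBelow {c | ∃ z ∈ nullSeq ω M ξ, ∀ n, ‖x n - z n‖ ≤ c} :=
  ⟨0, fun _ ⟨_, _, h⟩ => (norm_nonneg _).trans (h 0)⟩

theorem un_nonneg (x : Sq H) : 0 ≤ ultraNorm ω M ξ x :=
  Real.sInf_nonneg fun _ ⟨_, _, h⟩ => (norm_nonneg _).trans (h 0)

variable (hξ : ∀ n, HasSum (fun k => ‖ξ n k‖ ^ 2) 1)
include hξ

theorem un_le {w z : Sq H} (hw : w ∈ bddSeq fun n => M n) (hz : z ∈ nullSeq ω M ξ) {c : ℝ}
    (hc : 0 ≤ c) (h : ∀ δ : ℝ, 0 < δ → ∀ᶠ n in ω, ‖w n - z n‖ ≤ c + δ) :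
    ultraNorm ω M ξ w ≤ c := by
  classical
  refine le_of_forall_pos_le_add fun δ hδ => csInf_le (un_bdd w)
    ⟨fun n => if ‖w n - z n‖ ≤ c + δ then z n else w n, null_approx hξ ?_ fun η hη =>
      ⟨z, hz, (h δ hδ).mono fun n hn => by simp [hn, hη.le]⟩, fun n => ?_⟩
  · obtain ⟨C, hC⟩ := hw.2
    obtain ⟨D, hD⟩ := hz.1.2
    refine ⟨fun n => ?_, max C D, fun n => ?_⟩ <;> dsimp only <;> split_ifs
    exacts [hz.1.1 n, hw.1 n, le_max_of_le_right (hD n), le_max_of_le_left (hC n)]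
  · dsimp only
    split_ifs with h1
    · exact h1
    · rw [sub_self, norm_zero]; linarith

theorem exists_near {x : Sq H} (hx : x ∈ bddSeq fun n => M n) (hs : IsSelfAdjoint x) {δ : ℝ}
    (hδ : 0 < δ) : ∃ z ∈ nullSeq ω M ξ, IsSelfAdjoint z ∧
      ∀ n, ‖x n - z n‖ ≤ ultraNorm ω M ξ x + δ := by
  obtain ⟨C, hC⟩ := hx.2
  obtain ⟨c, ⟨z, hz, h1⟩, h2⟩ := exists_lt_of_csInf_lt
    (s := {c | ∃ z ∈ nullSeq ω M ξ, ∀ n, ‖x n - z n‖ ≤ c}) ⟨C, 0, null_zero hξ, by simpa⟩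
    (lt_add_of_pos_right _ hδ)
  refine ⟨(2⁻¹ : ℂ) • (z + star z), null_smul hξ _ (null_add hξ hz (null_star hξ hz)), ?_,
    fun n => ?_⟩
  · simp [IsSelfAdjoint, add_comm]
  · have e : x n - ((2⁻¹ : ℂ) • (z + star z)) n =
        (2⁻¹ : ℂ) • ((x n - z n) + star (x n - z n)) := by
      have : star (x n) = x n := congrFun hs.star_eq n
      simp only [star_sub, this, Pi.smul_apply, Pi.add_apply, Pi.star_apply]
      module
    have h3 := norm_add_le (x n - z n) (star (x n - z n))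
    rw [norm_star] at h3
    rw [e, norm_smul, norm_inv, Complex.norm_two]
    have := h1 n
    unfold ultraNorm
    linarith

theorem exists_lift (hω : (ω : Filter ℕ) ≤ cofinite) {x : Sq H} (hx : x ∈ bddSeq fun n => M n)
    (hs : IsSelfAdjoint x) : ∃ z ∈ nullSeq ω M ξ, IsSelfAdjoint z ∧
      ∀ δ : ℝ, 0 < δ → ∀ᶠ n in ω, ‖x n - z n‖ ≤ ultraNorm ω M ξ x + δ := by
  classical
  choose z h1 h2 h3 using fun m : ℕ =>
    exists_near (ω := ω) hξ hx hs (δ := 1 / (m + 1)) Nat.one_div_pos_of_nat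
  let P : ℕ → ℕ → Prop := fun n m =>
    sq2 (ξ n) (z m n) ≤ 1 / (m + 1)
  have key : ∀ δ : ℝ, 0 < δ → ∀ᶠ n in ω, P n (Nat.findGreatest (P n) n) ∧
      1 / ((Nat.findGreatest (P n) n : ℝ) + 1) ≤ δ := by
    intro δ hδ
    obtain ⟨m, hm⟩ := exists_nat_one_div_lt hδ
    filter_upwards [((mem_null hξ).1 (h1 m)).2.1.ev (δ := 1 / (m + 1)) Nat.one_div_pos_of_nat,
      hω (Nat.cofinite_eq_atTop ▸ eventually_ge_atTop m)] with n a1 a2
    exact ⟨Nat.findGreatest_spec (P := P n) a2 a1,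
      (Nat.one_div_le_one_div (Nat.le_findGreatest (P := P n) a2 a1)).trans hm.le⟩
  have hs' : IsSelfAdjoint fun n => z (Nat.findGreatest (P n) n) n :=
    funext fun n => congrFun (h2 _).star_eq n
  have hL : Lz ω ξ fun n => z (Nat.findGreatest (P n) n) n :=
    Lz.of_le fun δ hδ => (key δ hδ).mono fun n h => h.1.trans h.2
  obtain ⟨C, hC⟩ := hx.2
  refine ⟨fun n => z (Nat.findGreatest (P n) n) n, (mem_null hξ).2
    ⟨⟨fun n => (h1 _).1.1 n, C + (ultraNorm ω M ξ x + 1), fun n => ?_⟩, hL, by rwa [hs'.star_eq]⟩,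
    hs', fun δ hδ => (key δ hδ).mono fun n h => (h3 _ n).trans (by linarith [h.2])⟩
  dsimp only
  generalize Nat.findGreatest (P n) n = m
  have a1 := norm_sub_le (x n) (x n - z m n)
  have a2 : 1 / ((m : ℝ) + 1) ≤ 1 := by
    rw [div_le_one (by positivity)]; linarith [Nat.cast_nonneg (α := ℝ) m]
  rw [sub_sub_cancel] at a1
  linarith [hC n, h3 m n]

variable {A : ℕ → StarSubalgebra ℂ (H →L[ℂ] H)}

theorem a_mult (hA : ∀ n, ∀ a ∈ A n, a ∈ M n)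
    (hc : ∀ n, ∀ a ∈ A n, ∀ y ∈ M n, vecState (ξ n) (a * y) = vecState (ξ n) (y * a))
    {a : Sq H} (ha : a ∈ bddSeq fun n => A n) : a ∈ multSeq ω M ξ :=
  central_mult hξ ⟨fun n => hA n _ (ha.1 n), ha.2⟩ (fun n => hc n _ (ha.1 n))
    fun n => hc n _ (star_mem (ha.1 n))

theorem ultra_pave (hω : (ω : Filter ℕ) ≤ cofinite) (hA : ∀ n, ∀ a ∈ A n, a ∈ M n)
    (hc : ∀ n, ∀ a ∈ A n, ∀ y ∈ M n, vecState (ξ n) (a * y) = vecState (ξ n) (y * a))
    {k r : ℕ} {ε : ℝ} (hε : 0 < ε) (hP : ∀ n, JP (M n) (A n) k ε r) (x : Fin k → Sq H)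
    (hx : ∀ j, x j ∈ multSeq ω M ξ ∧ IsSelfAdjoint (x j)) :
    ∃ (p : Fin r → Sq H) (a : Fin k → Sq H), (∀ n, IsPartition (A n) fun i => p i n) ∧
      ∀ j, a j ∈ bddSeq (fun n => A n) ∧ IsSelfAdjoint (a j) ∧
        ultraNorm ω M ξ (a j) ≤ ultraNorm ω M ξ (x j) ∧
        ultraNorm ω M ξ (∑ i, p i * x j * p i - a j) ≤ ε * ultraNorm ω M ξ (x j) := by
  choose z z1 z2 z3 using fun j => exists_lift hξ hω (hx j).1.1 (hx j).2
  have hy : ∀ j, x j - z j ∈ multSeq ω M ξ := fun j =>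
    mult_sub hξ (hx j).1 (null_mult hξ (z1 j))
  choose F δ' d0 hF using fun n : ℕ =>
    exists_fin (hξ n) (δ := 1 / (n + 1)) Nat.one_div_pos_of_nat
  choose p a q h1 h2 h3 h4 h5 h6 using fun n => hP n (fun j => (x j - z j) n)
    (fun j => ⟨(hy j).1.1 n, congrFun ((hx j).2.sub (z2 j)).star_eq n⟩) (F n) (δ' n) (d0 n)
  have hq : (1 - q : Sq H) ∈ nullSeq ω M ξ := by
    have hL : Lz ω ξ (1 - q) := squeeze_zero (fun _ => sq2_nonneg _)
      (fun n => hF n _ (h4 n) (h5 n))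
      (tendsto_one_div_add_atTop_nhds_zero_nat.mono_left (Nat.cofinite_eq_atTop ▸ hω))
    have hs : star (1 - q : Sq H) = 1 - q := funext fun n => (h4 n).one_sub.isSelfAdjoint.star_eq
    exact (mem_null hξ).2 ⟨⟨fun n => sub_mem (one_mem _) (h3 n), 1,
      fun n => IsStarProjection.norm_le _ (h4 n).one_sub⟩, hL, by rwa [hs]⟩
  have hq' : (q : Sq H) ∈ multSeq ω M ξ := by
    have := mult_sub hξ mult_one (null_mult hξ hq)
    rwa [sub_sub_cancel] at this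
  have hp : ∀ i, (fun n => p n i) ∈ multSeq ω M ξ := fun i => a_mult hξ hA hc
    ⟨fun n => ((h1 n).1 i).1, 1, fun n => IsStarProjection.norm_le _ ((h1 n).1 i).2⟩
  refine ⟨fun i n => p n i, fun j n => a n j, h1, fun j => ?_⟩
  obtain ⟨C, hC⟩ := (hy j).1.2
  have ha : (fun n => a n j) ∈ bddSeq fun n => (A n : Set (H →L[ℂ] H)) :=
    ⟨fun n => (h2 n j).1, C, fun n => (h2 n j).2.2.trans (hC n)⟩
  have ha' := a_mult (ω := ω) hξ hA hc ha
  refine ⟨ha, funext fun n => (h2 n j).2.1.star_eq, un_le hξ ha'.1 (null_zero hξ) (un_nonneg _)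
    fun δ hδ => (z3 j δ hδ).mono fun n h => ?_, ?_⟩
  · simpa using (h2 n j).2.2.trans h
  set P : Fin r → Sq H := fun i n => p n i with hP'
  have hw : ∑ i, P i * (x j - z j) * P i - (fun n => a n j) ∈ multSeq ω M ξ :=
    mult_sub hξ (mult_sum hξ _ fun i => mult_mul (mult_mul (hp i) (hy j)) (hp i)) ha'
  set w := ∑ i, P i * (x j - z j) * P i - (fun n => a n j) with hw'
  have hz : ∑ i, P i * z j * P i ∈ nullSeq ω M ξ :=
    Finset.sum_induction _ (· ∈ nullSeq ω M ξ) (fun _ _ => null_add hξ) (null_zero hξ)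
      fun i _ => ((hp i).2 _ ((hp i).2 _ (z1 j)).1).2
  have hz' := null_add hξ hz (null_add hξ (hw.2 _ hq).2 (hq'.2 _ (hw.2 _ hq).1).1)
  have e : ∑ i, P i * x j * P i - (fun n => a n j) -
      (∑ i, P i * z j * P i + ((1 - q) * w + q * (w * (1 - q)))) = q * w * q := by
    have : ∑ i, P i * x j * P i - (fun n => a n j) = w + ∑ i, P i * z j * P i := by
      rw [hw']
      simp only [mul_sub, sub_mul, Finset.sum_sub_distrib]
      abel
    rw [this]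
    noncomm_ring
  refine un_le hξ (mult_sub hξ (mult_sum hξ _ fun i =>
    mult_mul (mult_mul (hp i) (hx j).1) (hp i)) ha').1 hz' (mul_nonneg hε.le (un_nonneg _))
    fun δ hδ => (z3 j (δ / ε) (by positivity)).mono fun n h => ?_
  rw [← Pi.sub_apply, e]
  have e2 : (q * w * q) n = q n * (∑ i, p n i * (x j - z j) n * p n i - a n j) * q n := by
    simp [hw', hP', Finset.sum_apply]
  rw [e2]
  refine (h6 n j).trans ((mul_le_mul_of_nonneg_left h hε.le).trans_eq ?_)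
  field_simp

end Vale.Agent.N078
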