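import Vale.Agent.P078.H598.Rate23
import Vale.Agent.P132.M723.Cut

/-! P078, growth for every inclusion: orthogonal families, the symmetric form of the standard
form, windows, level sets, fine partitions, vertices of cubes. -/

set_option linter.all false

open Filter Topology
open scoped ComplexConjugate InnerProductSpace BoundedContinuousFunction

namespace Vale.Agent.N078T

open Vale.Agent.P132 (ModData ccB cutoff g4_adj g4_cfc_mem)

universe u

variable {K : Type u} [NormedAddCommGroup K] [InnerProductSpace ℂ K] [CompleteSpace K]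

theorem re_self (v : K) : (⟪v, v⟫_ℂ).re = ‖v‖ ^ 2 := by
  rw [inner_self_eq_norm_sq_to_K]; norm_cast

theorem re_le (u v : K) : (⟪u, v⟫_ℂ).re ≤ ‖u‖ * ‖v‖ :=
  (Complex.re_le_norm _).trans (norm_inner_le_norm _ _)

theorem re_ge (u v : K) : -(‖u‖ * ‖v‖) ≤ (⟪u, v⟫_ℂ).re := by
  have := re_le u (-v)
  rw [inner_neg_right, Complex.neg_re, norm_neg] at this
  linarith

theorem re_symm (u v : K) : (⟪u, v⟫_ℂ).re = (⟪v, u⟫_ℂ).re := by
  rw [← inner_conj_symm, Complex.conj_re]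

theorem adj_l (a : K →L[ℂ] K) (u v : K) : ⟪star a u, v⟫_ℂ = ⟪u, a v⟫_ℂ := by
  rw [ContinuousLinearMap.star_eq_adjoint, ContinuousLinearMap.adjoint_inner_left]

theorem adj_r (a : K →L[ℂ] K) (u v : K) : ⟪u, star a v⟫_ℂ = ⟪a u, v⟫_ℂ := by
  rw [ContinuousLinearMap.star_eq_adjoint, ContinuousLinearMap.adjoint_inner_right]

theorem re_nonneg {a : K →L[ℂ] K} (h : 0 ≤ a) (v : K) : 0 ≤ (⟪v, a v⟫_ℂ).re := by
  have h1 := ((ContinuousLinearMap.nonneg_iff_isPositive a).1 h).re_inner_nonneg_right v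
  simpa using h1

theorem norm_proj_le {p : K →L[ℂ] K} (hp : IsStarProjection p) (v : K) : ‖p v‖ ≤ ‖v‖ := by
  have h1 : ‖p‖ ≤ 1 := hp.norm_le
  have := p.le_opNorm v
  nlinarith [norm_nonneg v]

theorem re_proj {p : K →L[ℂ] K} (hp : IsStarProjection p) (v : K) :
    (⟪v, p v⟫_ℂ).re = ‖p v‖ ^ 2 := by
  have h1 : p v = p (p v) := by
    rw [← ContinuousLinearMap.mul_apply, hp.isIdempotentElem.eq]
  rw [h1, ← g4_adj hp.isSelfAdjoint.star_eq, re_self, ← h1]

/-- orthogonal families of projections -/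
structure OP {ι : Type*} (P : ι → K →L[ℂ] K) : Prop where
  pr : ∀ i, IsStarProjection (P i)
  orth : ∀ i j, i ≠ j → P i * P j = 0

namespace OP

variable {ι : Type*} [Fintype ι] {P : ι → K →L[ℂ] K}

theorem norm_sum (h : OP P) (v : ι → K) :
    ‖∑ i, P i (v i)‖ ^ 2 = ∑ i, ‖P i (v i)‖ ^ 2 := by
  refine Vale.Agent.P078.norm_sum_sq_of_orth _ _ fun i _ j _ hij => ?_
  rw [g4_adj (h.pr i).isSelfAdjoint.star_eq, ← ContinuousLinearMap.mul_apply, h.orth i j hij]
  simp

theorem bessel (h : OP P) (v : K) : ∑ i, ‖P i v‖ ^ 2 ≤ ‖v‖ ^ 2 := by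
  have h1 := h.norm_sum fun _ => v
  have h2 : (⟪v, ∑ i, P i v⟫_ℂ).re = ∑ i, ‖P i v‖ ^ 2 := by
    rw [inner_sum, Complex.re_sum]
    exact Finset.sum_congr rfl fun i _ => re_proj (h.pr i) v
  have h3 := re_le v (∑ i, P i v)
  rw [h2, ← h1] at h3
  rw [← h1]
  nlinarith [sq_nonneg (‖v‖ - ‖∑ i, P i v‖)]

theorem norm_comb (h : OP P) (a : ι → ℝ) (v : K) :
    ‖(∑ i, ((a i : ℝ) : ℂ) • P i) v‖ ^ 2 = ∑ i, a i ^ 2 * ‖P i v‖ ^ 2 := by
  have h1 : (∑ i, ((a i : ℝ) : ℂ) • P i) v = ∑ i, P i (((a i : ℝ) : ℂ) • v) := by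
    rw [ContinuousLinearMap.sum_apply]
    refine Finset.sum_congr rfl fun i _ => ?_
    rw [map_smul]; rfl
  rw [h1, h.norm_sum]
  refine Finset.sum_congr rfl fun i _ => ?_
  rw [map_smul, norm_smul, mul_pow, Complex.norm_real, Real.norm_eq_abs, sq_abs]

theorem mul_comb (h : OP P) (a : ι → ℂ) (j : ι) : P j * ∑ i, a i • P i = a j • P j := by
  classical
  rw [Finset.mul_sum, Finset.sum_eq_single j]
  · rw [mul_smul_comm, (h.pr j).isIdempotentElem.eq]
  · intro i _ hi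
    rw [mul_smul_comm, h.orth j i hi.symm, smul_zero]
  · intro h0; exact absurd (Finset.mem_univ j) h0

theorem comb_mul (h : OP P) (a : ι → ℂ) (j : ι) : (∑ i, a i • P i) * P j = a j • P j := by
  classical
  rw [Finset.sum_mul, Finset.sum_eq_single j]
  · rw [smul_mul_assoc, (h.pr j).isIdempotentElem.eq]
  · intro i _ hi
    rw [smul_mul_assoc, h.orth i j hi, smul_zero]
  · intro h0; exact absurd (Finset.mem_univ j) h0

theorem comb_comb (h : OP P) (a b : ι → ℂ) :
    (∑ i, a i • P i) * ∑ i, b i • P i = ∑ i, (a i * b i) • P i := by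
  rw [Finset.sum_mul]
  refine Finset.sum_congr rfl fun i _ => ?_
  rw [smul_mul_assoc, h.mul_comb, smul_smul]

theorem comb_star (h : OP P) (a : ι → ℝ) :
    star (∑ i, ((a i : ℝ) : ℂ) • P i) = ∑ i, ((a i : ℝ) : ℂ) • P i := by
  rw [star_sum]
  refine Finset.sum_congr rfl fun i _ => ?_
  rw [star_smul, (h.pr i).isSelfAdjoint.star_eq, Complex.star_def, Complex.conj_ofReal]

theorem rm {N : VonNeumannAlgebra K} {ξ : K} (D : ModData N ξ) (h : OP P) :
    OP fun i => D.Rm (P i) := by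
  refine ⟨fun i => ⟨D.Rm_idem (h.pr i).isIdempotentElem.eq,
    D.Rm_sa (h.pr i).isSelfAdjoint.star_eq⟩, fun i j hij => ?_⟩
  rw [← D.Rm_mul, h.orth j i hij.symm]
  have := D.Rm_smul 0 0
  rwa [zero_smul, zero_smul] at this

end OP

theorem partOP {A : StarSubalgebra ℂ (K →L[ℂ] K)} (Q : P078.Part A) : OP Q.e := ⟨Q.proj, Q.orth⟩

section modular

variable {N : VonNeumannAlgebra K} {ξ : K} (D : ModData N ξ)

theorem cut_compact (n : ℕ) : HasCompactSupport (ccB (cutoff n)) :=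
  (cutoff n).hasCompactSupport.comp_left (g := fun x : ℝ => (x : ℂ)) (by simp)

/-- the form `⟪a ξ, J b* ξ⟫` is hermitian -/
theorem s_symm {a b : K →L[ℂ] K} (ha : a ∈ N) (hb : b ∈ N) :
    ⟪a ξ, D.Rm b ξ⟫_ℂ = ⟪D.Rm a ξ, b ξ⟫_ℂ := by
  have hk : ∀ n, ∀ c ∈ N, D.Th (ccB (cutoff n)) (D.Rm c ξ) =
      D.Th (ModData.gdE (ccB (cutoff n)) (cut_compact n)) (c ξ) := fun n c hc => by
    rw [D.Rm_xi]
    exact D.kms c hc _ _ fun _ => rfl
  have hs : ∀ n, star (ModData.gdE (ccB (cutoff n)) (cut_compact n)) =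
      ModData.gdE (ccB (cutoff n)) (cut_compact n) := fun n => by
    ext x
    change star (((Real.exp (x / 2) : ℝ) : ℂ) * ((cutoff n x : ℝ) : ℂ)) =
      ((Real.exp (x / 2) : ℝ) : ℂ) * ((cutoff n x : ℝ) : ℂ)
    rw [← Complex.ofReal_mul, Complex.star_def, Complex.conj_ofReal]
  have h1 := (tendsto_const_nhds (x := a ξ)).inner (𝕜 := ℂ)
    (Vale.Agent.P132.tendsto_Th_cutoff D.Th D.Th_nondeg (D.Rm b ξ))
  have h2 := (Vale.Agent.P132.tendsto_Th_cutoff D.Th D.Th_nondeg (D.Rm a ξ)).inner (𝕜 := ℂ)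
    (tendsto_const_nhds (x := b ξ))
  refine tendsto_nhds_unique h1 (h2.congr fun n => ?_)
  rw [hk n a ha, hk n b hb, D.gd_inner_Th, hs]

/-- and positive -/
theorem s_nonneg {a : K →L[ℂ] K} (ha : a ∈ N) : 0 ≤ (⟪a ξ, D.Rm a ξ⟫_ℂ).re := by
  have h1 := (tendsto_const_nhds (x := a ξ)).inner (𝕜 := ℂ)
    (Vale.Agent.P132.tendsto_Th_cutoff D.Th D.Th_nondeg (D.Rm a ξ))
  refine ge_of_tendsto' ((Complex.continuous_re.tendsto _).comp h1) fun n => ?_
  have hk : D.Th (ccB (cutoff n)) (D.Rm a ξ) =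
      D.Th (ModData.gdE (ccB (cutoff n)) (cut_compact n)) (a ξ) := by
    rw [D.Rm_xi]
    exact D.kms a ha _ _ fun _ => rfl
  change 0 ≤ (⟪a ξ, D.Th (ccB (cutoff n)) (D.Rm a ξ)⟫_ℂ).re
  rw [hk]
  refine (Vale.Agent.P132.Th_pos D.Th _ (fun x => Real.exp (x / 2) * cutoff n x) ?_
    (fun x => ?_) (fun x => ?_) _).1
  · exact (Real.continuous_exp.comp (by fun_prop)).mul (cutoff n).continuous
  · change ((Real.exp (x / 2) : ℝ) : ℂ) * ((cutoff n x : ℝ) : ℂ) = _
    rw [← Complex.ofReal_mul]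
  · exact mul_nonneg (Real.exp_pos _).le (Vale.Agent.P132.cutoff_nonneg n x)

theorem s_lower {a b : K →L[ℂ] K} (ha : a ∈ N) (hb : b ∈ N) :
    2 * (⟪a ξ, D.Rm b ξ⟫_ℂ).re - (⟪b ξ, D.Rm b ξ⟫_ℂ).re ≤ (⟪a ξ, D.Rm a ξ⟫_ℂ).re := by
  have h1 := s_nonneg D (sub_mem ha hb)
  have h2 : (⟪b ξ, D.Rm a ξ⟫_ℂ).re = (⟪a ξ, D.Rm b ξ⟫_ℂ).re := by
    rw [s_symm D hb ha, re_symm]
  rw [D.Rm_sub, ContinuousLinearMap.sub_apply, ContinuousLinearMap.sub_apply, inner_sub_left,
    inner_sub_right, inner_sub_right, Complex.sub_re, Complex.sub_re, Complex.sub_re, h2] at h1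
  linarith

theorem s_star (a : K →L[ℂ] K) :
    ⟪star a ξ, D.Rm (star a) ξ⟫_ℂ = ⟪a ξ, D.Rm a ξ⟫_ℂ := by
  rw [D.Rm_xi, D.Rm_xi, star_star, D.inner_J_right]

/-- on a narrow window the modular operator is almost scalar -/
theorem window {z : K →L[ℂ] K} (hz : z ∈ N) {κ δ : ℝ} (h0 : 0 < δ) (hδ : δ ≤ 1)
    (h : D.CW (κ - δ) (κ + δ) (z ξ)) :
    ‖D.Rm z ξ - ((Real.exp (κ / 2) : ℝ) : ℂ) • z ξ‖ ≤ δ * Real.exp (κ / 2) * ‖z ξ‖ := by
  obtain ⟨F, -, hF, hF1⟩ := ModData.exists_cut_smooth (fun _ => (1 : ℂ)) contDiff_const κ δ h0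
  have h1 : z ξ = D.Th F (z ξ) := by
    have := ModData.CW.Th_eq D h (F := 1) (G := F) fun x hx => by rw [hF1 x hx]; rfl
    rw [map_one] at this
    exact this
  have h2 := D.gd_J_star (x := z) hz F hF h1
  have h3 : D.Rm z ξ - ((Real.exp (κ / 2) : ℝ) : ℂ) • z ξ =
      D.Th (ModData.gdE F hF - ((Real.exp (κ / 2) : ℝ) : ℂ) • 1) (z ξ) := by
    rw [D.Rm_xi, h2, map_sub, map_smul, map_one]; rfl
  rw [h3]
  refine ModData.CW.norm_le D (by linarith) h (by positivity) fun x hx => ?_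
  have h4 : (ModData.gdE F hF - ((Real.exp (κ / 2) : ℝ) : ℂ) • (1 : ℝ →ᵇ ℂ)) x =
      ((Real.exp (κ / 2) * (Real.exp ((x - κ) / 2) - 1) : ℝ) : ℂ) := by
    change ((Real.exp (x / 2) : ℝ) : ℂ) * F x - ((Real.exp (κ / 2) : ℝ) : ℂ) * 1 = _
    rw [hF1 x hx, mul_one, mul_one, ← Complex.ofReal_sub, mul_sub, ← Real.exp_add, mul_one]
    congr 3
    ring
  rw [h4, Complex.norm_real, Real.norm_eq_abs, abs_mul, abs_of_pos (Real.exp_pos _), mul_comm]
  refine mul_le_mul_of_nonneg_right ?_ (Real.exp_pos _).le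
  have h5 : |(x - κ) / 2| ≤ δ / 2 := by
    rw [abs_le]; constructor <;> linarith [hx.1, hx.2]
  have h6 := Real.abs_exp_sub_one_le (x := (x - κ) / 2) (by linarith)
  linarith

end modular

/-- a level set of a positive operator -/
theorem exists_level {B : VonNeumannAlgebra K} {t : K →L[ℂ] K} (ht : t ∈ B) (h0 : 0 ≤ t)
    (hne : t ≠ 0) : ∃ g ∈ B, IsStarProjection g ∧ g ≠ 0 ∧
      ∀ η, g η = η → ‖t‖ / 2 * ‖η‖ ^ 2 ≤ (⟪η, t η⟫_ℂ).re := by
  have hn : 0 < ‖t‖ := norm_pos_iff.2 hne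
  obtain ⟨T, hT, -, hT4, hTT, r, -, hr, hdec⟩ := Vale.Agent.P132.exists_cuts ht h0
    (s := ‖t‖ / 4) (by positivity) (L := 4) (by norm_num) (by push_cast; linarith)
  have hp : ∀ j, IsStarProjection (T j) := fun j => ⟨(hT j).idem, (hT j).sa⟩
  simp only [Finset.sum_range_succ, Finset.sum_range_zero, zero_add] at hdec
  rw [hT4 4 le_rfl, add_zero] at hdec
  refine ⟨T 3, (hT 3).mem, hp 3, fun h3 => ?_, fun η hη => ?_⟩
  · rw [h3, add_zero] at hdec
    have h1 : ‖t‖ ≤ ‖t‖ / 4 * 2 + ‖t‖ / 4 := by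
      conv_lhs => rw [hdec]
      refine (norm_add_le _ _).trans (add_le_add ?_ hr)
      rw [norm_smul, Complex.norm_real, Real.norm_of_nonneg (by positivity)]
      refine mul_le_mul_of_nonneg_left ((norm_add_le _ _).trans ?_) (by positivity)
      linarith [(hp 1).norm_le, (hp (1 + 1)).norm_le]
    linarith
  · have h2 : T 2 η = η := by
      rw [← hη, ← ContinuousLinearMap.mul_apply, hTT 2]
    have h1 : T 1 η = η := by
      rw [← h2, ← ContinuousLinearMap.mul_apply, hTT 1]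
    have h4 : t η = ((‖t‖ / 4 : ℝ) : ℂ) • (η + η + η) + r η := by
      conv_lhs => rw [hdec]
      change ((‖t‖ / 4 : ℝ) : ℂ) • (T 1 η + T 2 η + T 3 η) + r η = _
      rw [h1, h2, hη]
    have h5 := re_ge η (r η)
    have h6 : ‖r η‖ ≤ ‖t‖ / 4 * ‖η‖ :=
      (r.le_opNorm η).trans (mul_le_mul_of_nonneg_right hr (norm_nonneg _))
    rw [h4, inner_add_right, inner_smul_right, Complex.add_re, Complex.re_ofReal_mul,
      inner_add_right, inner_add_right, Complex.add_re, Complex.add_re, re_self]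
    nlinarith [norm_nonneg η]

/-- approximation of a positive operator by a simple function -/
theorem exists_simple {B : VonNeumannAlgebra K} {t : K →L[ℂ] K} (ht : t ∈ B) (h0 : 0 ≤ t)
    {s : ℝ} (hs : 0 < s) : ∃ (Q : P078.Part B.toStarSubalgebra) (c : Q.ι → ℝ),
      ‖t - ∑ i, ((c i : ℝ) : ℂ) • Q.e i‖ ≤ s := by
  obtain ⟨L, hL⟩ := exists_nat_ge (‖t‖ / s)
  obtain ⟨T, hT, hT0, hTL, hTT, r, -, hr, hdec⟩ := Vale.Agent.P132.exists_cuts ht h0 hs
    (L := L + 1) (by omega) (by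
      rw [div_le_iff₀ hs] at hL
      push_cast
      nlinarith)
  have hP := Vale.Agent.P132.nested_pu hT hT0 hTL hTT
  let Q : P078.Part B.toStarSubalgebra :=
    { ι := Fin (L + 1)
      e := fun i => T i - T (i + 1)
      mem := fun i => (hP.pr i).mem
      proj := fun i => ⟨(hP.pr i).idem, (hP.pr i).sa⟩
      orth := fun i j hij => hP.orth i j fun h => hij (Fin.ext h)
      sum_eq := by
        rw [← hP.sum, Finset.sum_range fun i => T i - T (i + 1)] }
  refine ⟨Q, fun i : Fin (L + 1) => s * (i : ℕ), ?_⟩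
  have h1 : t - ∑ i : Fin (L + 1), (((s * (i : ℕ) : ℝ)) : ℂ) • (T i - T (i + 1)) = r := by
    rw [sub_eq_iff_eq_add, add_comm, hdec, Vale.Agent.P132.abel_cuts, hTL _ le_rfl, smul_zero,
      add_zero, Finset.smul_sum,
      Finset.sum_range fun i => (s : ℂ) • (((i : ℝ) : ℂ)) • (T i - T (i + 1))]
    congr 1
    refine Finset.sum_congr rfl fun i _ => ?_
    rw [smul_smul, Complex.ofReal_mul]
  exact h1 ▸ hr

/-- a function which is affine in each variable is largest at a vertex of the cube -/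
theorem exists_vertex {ι : Type*} [Fintype ι] [DecidableEq ι] (F : (ι → ℝ) → ℝ)
    (hF : ∀ (w : ι → ℝ) (j : ι) (s : ℝ), F (Function.update w j s) =
      (1 - s) * F (Function.update w j 0) + s * F (Function.update w j 1))
    (t : ι → ℝ) (ht : ∀ i, 0 ≤ t i ∧ t i ≤ 1) :
    ∃ w : ι → ℝ, (∀ i, w i = 0 ∨ w i = 1) ∧ F t ≤ F w := by
  have key : ∀ S : Finset ι, ∃ w : ι → ℝ, (∀ i, 0 ≤ w i ∧ w i ≤ 1) ∧
      (∀ i ∈ S, w i = 0 ∨ w i = 1) ∧ F t ≤ F w := by
    intro S
    induction S using Finset.induction_on with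
    | empty => exact ⟨t, ht, fun i hi => absurd hi (Finset.notMem_empty i), le_rfl⟩
    | insert j S _ ih =>
      obtain ⟨w, h1, h2, h3⟩ := ih
      have h4 := hF w j (w j)
      rw [Function.update_eq_self] at h4
      have h5 : ∀ s : ℝ, (s = 0 ∨ s = 1) → F w ≤ F (Function.update w j s) →
          ∃ w : ι → ℝ, (∀ i, 0 ≤ w i ∧ w i ≤ 1) ∧
            (∀ i ∈ insert j S, w i = 0 ∨ w i = 1) ∧ F t ≤ F w := by
        intro s hs hle
        refine ⟨Function.update w j s, fun i => ?_, fun i hi => ?_, h3.trans hle⟩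
        · by_cases hij : i = j
          · rw [hij, Function.update_self]
            rcases hs with h | h <;> rw [h] <;> norm_num
          · rw [Function.update_of_ne hij]; exact h1 i
        · by_cases hij : i = j
          · rw [hij, Function.update_self]; exact hs
          · rw [Function.update_of_ne hij]
            exact h2 i ((Finset.mem_insert.1 hi).resolve_left hij)
      rcases le_total (F (Function.update w j 0)) (F (Function.update w j 1)) with h | h
      · exact h5 1 (Or.inr rfl) (by nlinarith [(h1 j).1, (h1 j).2])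
      · exact h5 0 (Or.inl rfl) (by nlinarith [(h1 j).1, (h1 j).2])
  obtain ⟨w, -, h2, h3⟩ := key Finset.univ
  exact ⟨w, fun i => h2 i (Finset.mem_univ i), h3⟩

/-- random sampling, without probabilities -/
theorem exists_sample {ι : Type*} [Fintype ι] [DecidableEq ι] (a : ι → ℝ) (b : ι → ι → ℝ)
    (t : ι → ℝ) (ht : ∀ i, 0 ≤ t i ∧ t i ≤ 1) :
    ∃ w : ι → ℝ, (∀ i, w i = 0 ∨ w i = 1) ∧
      ∑ i, t i * (a i - b i i) - ∑ i, ∑ j, t i * t j * b i j + ∑ i, t i * t i * b i i ≤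
        ∑ i, w i * a i - ∑ i, ∑ j, w i * w j * b i j := by
  obtain ⟨w, hw, h⟩ := exists_vertex (fun w => ∑ i, w i * (a i - b i i) -
    ∑ i, ∑ j, w i * w j * b i j + ∑ i, w i * w i * b i i) (by
      intro w j s
      have e : ∀ (s : ℝ) (i : ι), Function.update w j s i =
          Function.update w j 0 i + s * (if i = j then 1 else 0) := by
        intro s i
        by_cases hij : i = j
        · rw [hij]; simp
        · simp [hij]
      obtain ⟨u, hu⟩ : ∃ u, u = Function.update w j (0 : ℝ) := ⟨_, rfl⟩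
      have hu0 : u j = 0 := by rw [hu, Function.update_self]
      have key : ∀ s : ℝ, ∑ i, Function.update w j s i * (a i - b i i) -
          ∑ i, ∑ l, Function.update w j s i * Function.update w j s l * b i l +
          ∑ i, Function.update w j s i * Function.update w j s i * b i i =
          (∑ i, u i * (a i - b i i) - ∑ i, ∑ l, u i * u l * b i l + ∑ i, u i * u i * b i i) +
            s * ((a j - b j j) - ∑ l, u l * b j l - ∑ i, u i * b i j) := by
        intro s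
        simp only [e s, ← hu, add_mul, mul_add, Finset.sum_add_distrib, mul_ite, ite_mul, mul_one,
          mul_zero, zero_mul, Finset.sum_ite_eq', Finset.mem_univ, if_true, hu0,
          Finset.sum_ite_irrel, Finset.sum_const_zero]
        simp only [mul_sub, Finset.mul_sum]
        have e1 : ∀ i, u i * s * b i j = s * (u i * b i j) := fun i => by ring
        have e2 : ∀ i, s * u i * b j i = s * (u i * b j i) := fun i => by ring
        simp only [e1, e2]
        ring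
      simp only [key]
      ring) t ht
  refine ⟨w, hw, h.trans (le_of_eq ?_)⟩
  have e : ∀ i, w i * w i * b i i = w i * b i i := fun i => by
    rcases hw i with h | h <;> rw [h] <;> ring
  simp only [e, mul_sub, Finset.sum_sub_distrib]
  ring

end Vale.Agent.N078T
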