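import Vale.Agent.N078.T3A

/-! P078, growth for every inclusion: windowed elements between pieces of a maximal abelian
subalgebra in the centralizer of a state, cut on the left and sampled on the right. -/

set_option linter.all false

open Filter Topology
open scoped ComplexConjugate InnerProductSpace BoundedContinuousFunction

namespace Vale.Agent.N078T

open Vale.Agent.P132 (ModData g4_adj g4_cfc_mem)

universe u

variable {K : Type u} [NormedAddCommGroup K] [InnerProductSpace ℂ K] [CompleteSpace K]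

/-- a maximal abelian subalgebra in the centralizer of a cyclic and separating vector state -/
structure Std (N B : VonNeumannAlgebra K) (ξ : K) where
  D : ModData N ξ
  masa : P078.SO.IsMASA B N
  inC : ∀ b ∈ B, D.InC b
  E : (K →L[ℂ] K) →ₗ[ℂ] (K →L[ℂ] K)
  Emem : ∀ x ∈ N, E x ∈ B
  Epos : ∀ x ∈ N, 0 ≤ x → 0 ≤ E x
  Etr : ∀ x ∈ N, ∀ b ∈ B, ⟪ξ, (E x * b) ξ⟫_ℂ = ⟪ξ, (x * b) ξ⟫_ℂ
  Eweak : ∀ x ∈ N, ∀ ζ η, Tendsto (fun Q : P078.Part B.toStarSubalgebra => ⟪ζ, Q.E x η⟫_ℂ)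
    (P078.Part.filter _) (𝓝 ⟪ζ, E x η⟫_ℂ)
  Estrong : ∀ x ∈ N, ∀ κ : ℝ, 0 < κ → ∀ᶠ Q in P078.Part.filter B.toStarSubalgebra,
    ‖Q.E x ξ - E x ξ‖ ≤ κ

namespace Std

variable {N B : VonNeumannAlgebra K} {ξ : K} (S : Std N B ξ)

include S in
theorem mem {b : K →L[ℂ] K} (hb : b ∈ B) : b ∈ N := S.masa.1 b hb

include S in
theorem comm {a b : K →L[ℂ] K} (ha : a ∈ B) (hb : b ∈ B) : a * b = b * a := S.masa.2.1 a ha b hb

theorem rx {b : K →L[ℂ] K} (hb : b ∈ B) : S.D.Rm b ξ = b ξ :=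
  ModData.InC.Rm_xi S.D (S.inC b hb)

theorem mx {x b : K →L[ℂ] K} (hx : x ∈ N) (hb : b ∈ B) : x (b ξ) = S.D.Rm b (x ξ) :=
  ModData.InC.mul_xi S.D hx (S.inC b hb)

include S in
theorem central {x b : K →L[ℂ] K} (hx : x ∈ N) (hb : b ∈ B) :
    ⟪ξ, b (x ξ)⟫_ℂ = ⟪ξ, x (b ξ)⟫_ℂ := by
  rw [S.mx hx hb, ← adj_l (S.D.Rm b), S.D.star_Rm, S.rx (star_mem hb), adj_l]

include S in
theorem eq_zero {x : K →L[ℂ] K} (hx : x ∈ N) (h : x ξ = 0) : x = 0 :=
  S.D.ext_xi hx (zero_mem N.toStarSubalgebra) h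

include S in
theorem neBot : (P078.Part.filter B.toStarSubalgebra).NeBot :=
  P078.Part.filter_neBot fun x hx y hy => S.comm hx hy

theorem star_norm {y e : K →L[ℂ] K} (hy : y ∈ N) (he : e ∈ B) (hep : IsStarProjection e) :
    ‖star (e * y) ξ‖ ^ 2 = (⟪e ξ, S.E (y * star y) (e ξ)⟫_ℂ).re := by
  have hT : y * star y ∈ N := mul_mem hy (star_mem hy)
  have hes := hep.isSelfAdjoint.star_eq
  have hee : ∀ v, e (e v) = e v := fun v => by
    rw [← ContinuousLinearMap.mul_apply, hep.isIdempotentElem.eq]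
  have h1 : ⟪star (e * y) ξ, star (e * y) ξ⟫_ℂ = ⟪ξ, e ((y * star y * e) ξ)⟫_ℂ := by
    rw [adj_l, star_mul, hes]; rfl
  have h2 := S.Etr _ hT e he
  have h3 : S.E (y * star y) (e ξ) = e (S.E (y * star y) (e ξ)) := by
    have := S.comm (S.Emem _ hT) he
    calc S.E (y * star y) (e ξ) = (S.E (y * star y) * e) (e ξ) := by
          rw [ContinuousLinearMap.mul_apply, hee]
      _ = _ := by rw [this]; rfl
  rw [← re_self, h1, S.central (mul_mem hT (S.mem he)) he, ContinuousLinearMap.mul_apply, hee,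
    g4_adj hes, ← h3]
  exact congrArg Complex.re h2.symm

/-- a window for the bimodule generated by `y` -/
def Win (y : K →L[ℂ] K) (l : ℝ) : Prop :=
  ∀ a ∈ B, ∀ b ∈ B, ‖S.D.Rm (a * y * b) ξ - ((l : ℝ) : ℂ) • (a * y * b) ξ‖ ≤
    1 / 20 * l * ‖(a * y * b) ξ‖

theorem Win.bounds {y : K →L[ℂ] K} {l : ℝ} (hl : 0 < l) (h : S.Win y l) {a b : K →L[ℂ] K}
    (ha : a ∈ B) (hb : b ∈ B) :
    19 / 20 * l * ‖(a * y * b) ξ‖ ≤ ‖star (a * y * b) ξ‖ ∧
      ‖star (a * y * b) ξ‖ ≤ 21 / 20 * l * ‖(a * y * b) ξ‖ := by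
  have h1 := h a ha b hb
  have h2 := abs_norm_sub_norm_le (S.D.Rm (a * y * b) ξ) (((l : ℝ) : ℂ) • (a * y * b) ξ)
  rw [S.D.norm_Rm_xi, norm_smul, Complex.norm_real, Real.norm_of_nonneg hl.le, abs_le] at h2
  constructor <;> linarith [h2.1, h2.2]

/-- the data of step (A) -/
def Good (q f : K →L[ℂ] K) : Prop :=
  ∃ y ∈ N, ∃ l : ℝ, y * q = y ∧ 0 < l ∧ S.Win y l ∧ ‖S.E (y * star y)‖ ≤ 1 / 20 ∧
    ∀ e ∈ B, IsStarProjection e → f * e = e → 1 / 40 * ‖e ξ‖ ^ 2 ≤ ‖star (e * y) ξ‖ ^ 2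

theorem Good.mono {q f g : K →L[ℂ] K} (h : S.Good q f) (hfg : f * g = g) : S.Good q g := by
  obtain ⟨y, hy, l, h1, h2, h3, h4, h5⟩ := h
  exact ⟨y, hy, l, h1, h2, h3, h4, fun e he hep hge =>
    h5 e he hep (by rw [← hge, ← mul_assoc, hfg])⟩

theorem stepA {q f x : K →L[ℂ] K} (hq : q ∈ B) (hqp : IsStarProjection q) (hf : f ∈ B)
    (hfp : IsStarProjection f) (hx : x ∈ N) (hne : f * x * q ≠ 0) :
    ∃ g ∈ B, IsStarProjection g ∧ g ≠ 0 ∧ f * g = g ∧ S.Good q g := by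
  obtain ⟨κ, x', hx', hw, hne'⟩ := S.D.exists_narrow (S.inC q hq) (S.inC f hf) hx hne
    (δ := 1 / 20) (by norm_num)
  obtain ⟨y, hy⟩ : ∃ y, y = f * x' * q := ⟨_, rfl⟩
  have hyN : y ∈ N := by rw [hy]; exact mul_mem (mul_mem (S.mem hf) hx') (S.mem hq)
  have hwin : S.Win y (Real.exp (κ / 2)) := by
    intro a ha b hb
    refine window S.D (mul_mem (mul_mem (S.mem ha) hyN) (S.mem hb)) (by norm_num) (by norm_num) ?_
    have h1 := ModData.CW.InC_left S.D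
      (ModData.CW.InC_right S.D hx' hw (S.inC _ (mul_mem hq hb))) (S.inC _ (mul_mem ha hf))
    have e : a * y * b = a * f * (x' * (q * b)) := by rw [hy]; simp only [mul_assoc]
    rw [e]
    exact h1
  have hT : y * star y ∈ N := mul_mem hyN (star_mem hyN)
  obtain ⟨t, ht⟩ : ∃ t, t = S.E (y * star y) := ⟨_, rfl⟩
  have htB : t ∈ B := by rw [ht]; exact S.Emem _ hT
  have ht0 : 0 ≤ t := by rw [ht]; exact S.Epos _ hT (mul_star_self_nonneg y)
  have htne : t ≠ 0 := by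
    intro h0
    have h1 := S.star_norm hyN (one_mem B) (IsStarProjection.one _)
    rw [← ht, h0, one_mul] at h1
    have h2 : star y ξ = 0 := by simpa using h1
    have h3 := S.eq_zero (star_mem hyN) h2
    rw [star_eq_zero, hy] at h3
    exact hne' h3
  obtain ⟨g, hg, hgp, hg0, hlev⟩ := exists_level htB ht0 htne
  have hn : 0 < ‖t‖ := norm_pos_iff.2 htne
  have hlow : ∀ e ∈ B, IsStarProjection e → g * e = e →
      ‖t‖ / 2 * ‖e ξ‖ ^ 2 ≤ ‖star (e * y) ξ‖ ^ 2 := by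
    intro e he hep hge
    rw [S.star_norm hyN he hep, ← ht]
    exact hlev _ (by rw [← ContinuousLinearMap.mul_apply, hge])
  have hfg : f * g = g := by
    have h1f : 1 - f ∈ B := sub_mem (one_mem B) hf
    have hc := S.comm hg h1f
    have h1 := hlow (g * (1 - f)) (mul_mem hg h1f) (hgp.mul hfp.one_sub hc)
      (by rw [← mul_assoc, hgp.isIdempotentElem.eq])
    have h2 : g * (1 - f) * y = 0 := by
      rw [hy, mul_assoc g, ← mul_assoc (1 - f), ← mul_assoc (1 - f), sub_mul, one_mul,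
        hfp.isIdempotentElem.eq, sub_self, zero_mul, zero_mul, mul_zero]
    rw [h2, star_zero, ContinuousLinearMap.zero_apply, norm_zero] at h1
    have h3 : ‖(g * (1 - f)) ξ‖ ^ 2 ≤ 0 := by
      by_contra h
      push Not at h
      nlinarith
    have h4 : (g * (1 - f)) ξ = 0 := by
      have := le_antisymm h3 (sq_nonneg _)
      simpa using this
    have h5 := S.eq_zero (S.mem (mul_mem hg h1f)) h4
    rw [hc, sub_mul, one_mul, sub_eq_zero] at h5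
    exact h5.symm
  obtain ⟨c, hc⟩ : ∃ c : ℝ, c = Real.sqrt (1 / (20 * ‖t‖)) := ⟨_, rfl⟩
  have hc0 : 0 < c := by rw [hc]; positivity
  have hc2 : c ^ 2 * ‖t‖ = 1 / 20 := by
    rw [hc, Real.sq_sqrt (by positivity)]; field_simp
  have hst : ∀ z : K →L[ℂ] K, star (((c : ℝ) : ℂ) • z) = ((c : ℝ) : ℂ) • star z := fun z => by
    rw [star_smul, Complex.star_def, Complex.conj_ofReal]
  have hnc : ‖((c : ℝ) : ℂ)‖ = c := by rw [Complex.norm_real, Real.norm_of_nonneg hc0.le]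
  refine ⟨g, hg, hgp, hg0, hfg, ((c : ℝ) : ℂ) • y, N.toStarSubalgebra.smul_mem hyN _,
    Real.exp (κ / 2), ?_, Real.exp_pos _, fun a ha b hb => ?_, ?_, fun e he hep hge => ?_⟩
  · rw [smul_mul_assoc, hy, mul_assoc, hqp.isIdempotentElem.eq]
  · have h1 := hwin a ha b hb
    rw [mul_smul_comm, smul_mul_assoc, S.D.Rm_smul, ContinuousLinearMap.smul_apply,
      ContinuousLinearMap.smul_apply, smul_comm _ ((c : ℝ) : ℂ), ← smul_sub, norm_smul, norm_smul,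
      hnc]
    nlinarith
  · rw [hst, smul_mul_assoc, mul_smul_comm, map_smul, map_smul, ← ht, norm_smul, norm_smul, hnc]
    nlinarith
  · have h1 := hlow e he hep hge
    rw [mul_smul_comm, hst, ContinuousLinearMap.smul_apply, norm_smul, hnc, mul_pow]
    have h2 := mul_le_mul_of_nonneg_left h1 (sq_nonneg c)
    nlinarith [sq_nonneg ‖e ξ‖]

theorem iterA {ι : Type*} [Fintype ι] {q : ι → K →L[ℂ] K} (hq : ∀ k, q k ∈ B)
    (hqp : ∀ k, IsStarProjection (q k)) {f : K →L[ℂ] K} (hf : f ∈ B) (hfp : IsStarProjection f)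
    (hf0 : f ≠ 0) (h : ∀ g ∈ B, IsStarProjection g → g ≠ 0 → f * g = g →
      ∀ k, ∃ x ∈ N, g * x * q k ≠ 0) :
    ∃ g ∈ B, IsStarProjection g ∧ g ≠ 0 ∧ ∀ k, S.Good (q k) g := by
  classical
  have key : ∀ T : Finset ι, ∃ g ∈ B, IsStarProjection g ∧ g ≠ 0 ∧ f * g = g ∧
      ∀ k ∈ T, S.Good (q k) g := by
    intro T
    induction T using Finset.induction_on with
    | empty => exact ⟨f, hf, hfp, hf0, hfp.isIdempotentElem.eq,
        fun k hk => absurd hk (Finset.notMem_empty k)⟩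
    | insert j T _ ih =>
      obtain ⟨g, hg, hgp, hg0, hfg, hT⟩ := ih
      obtain ⟨x, hx, hne⟩ := h g hg hgp hg0 hfg j
      obtain ⟨g', hg', hgp', hg0', hgg', hG⟩ := S.stepA (hq j) (hqp j) hg hgp hx hne
      refine ⟨g', hg', hgp', hg0', by rw [← hgg', ← mul_assoc, hfg], fun k hk => ?_⟩
      rcases Finset.mem_insert.1 hk with h1 | h1
      · rw [h1]; exact hG
      · exact Good.mono S (hT k h1) hgg'
  obtain ⟨g, hg, hgp, hg0, -, hT⟩ := key Finset.univ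
  exact ⟨g, hg, hgp, hg0, fun k => hT k (Finset.mem_univ k)⟩

/-- step (B): a cell on the left -/
theorem stepB {ι : Type*} [Fintype ι] [Nonempty ι] {y : ι → K →L[ℂ] K} {l : ι → ℝ}
    (hy : ∀ k, y k ∈ N) (hl : ∀ k, 0 < l k) (hw : ∀ k, S.Win (y k) (l k))
    (hn : ∀ k, ‖S.E (y k * star (y k))‖ ≤ 1 / 20) {f : K →L[ℂ] K} (hf : f ∈ B)
    (hfp : IsStarProjection f) (hf0 : f ≠ 0) :
    ∃ e ∈ B, IsStarProjection e ∧ f * e = e ∧
      ∑ k, l k ^ 2 * ‖(star (e * y k) * (e * y k)) ξ‖ ^ 2 <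
        3 / 1000 * Fintype.card ι * ‖e ξ‖ ^ 2 := by
  have hT : ∀ k, y k * star (y k) ∈ N := fun k => mul_mem (hy k) (star_mem (hy k))
  have hlim : Tendsto (fun Q : P078.Part B.toStarSubalgebra =>
      ∑ k, l k ^ 2 * (⟪f (y k ξ), Q.E (y k * star (y k)) (f (y k ξ))⟫_ℂ).re)
      (P078.Part.filter _)
      (𝓝 (∑ k, l k ^ 2 * (⟪f (y k ξ), S.E (y k * star (y k)) (f (y k ξ))⟫_ℂ).re)) :=
    tendsto_finset_sum _ fun k _ => tendsto_const_nhds.mul
      ((Complex.continuous_re.tendsto _).comp (S.Eweak _ (hT k) _ _))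
  have hfx : 0 < ‖f ξ‖ ^ 2 := by
    have : f ξ ≠ 0 := fun h => hf0 (S.eq_zero (S.mem hf) h)
    positivity
  have hE : ∀ k v, (⟪v, S.E (y k * star (y k)) v⟫_ℂ).re ≤ 1 / 20 * ‖v‖ ^ 2 := by
    intro k v
    have h1 := re_le v (S.E (y k * star (y k)) v)
    have h2 := ((S.E (y k * star (y k))).le_opNorm v).trans
      (mul_le_mul_of_nonneg_right (hn k) (norm_nonneg v))
    nlinarith [norm_nonneg v]
  have hlt : ∑ k, l k ^ 2 * (⟪f (y k ξ), S.E (y k * star (y k)) (f (y k ξ))⟫_ℂ).re <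
      3 / 1000 * Fintype.card ι * ‖f ξ‖ ^ 2 := by
    have h1 : ∀ k, l k ^ 2 * (⟪f (y k ξ), S.E (y k * star (y k)) (f (y k ξ))⟫_ℂ).re ≤
        28 / 10000 * ‖f ξ‖ ^ 2 := by
      intro k
      have h2 := (Win.bounds S (hl k) (hw k) hf (one_mem B)).1
      rw [mul_one] at h2
      have h3 := S.star_norm (hy k) hf hfp
      have h4 := hE k (f ξ)
      have h5 := hE k (f (y k ξ))
      have h6 : (19 / 20 * l k * ‖(f * y k) ξ‖) ^ 2 ≤ ‖star (f * y k) ξ‖ ^ 2 :=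
        pow_le_pow_left₀ (by have := hl k; positivity) h2 2
      rw [ContinuousLinearMap.mul_apply] at h6
      have h7 := mul_le_mul_of_nonneg_left h5 (sq_nonneg (l k))
      nlinarith
    refine (Finset.sum_le_sum fun k _ => h1 k).trans_lt ?_
    rw [Finset.sum_const, Finset.card_univ, nsmul_eq_mul]
    have h2 : (0 : ℝ) < Fintype.card ι := by exact_mod_cast Fintype.card_pos
    nlinarith [mul_pos h2 hfx]
  have := S.neBot
  obtain ⟨Q, hQ⟩ := (hlim.eventually (gt_mem_nhds hlt)).exists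
  have hcell : ∀ i, Q.e i * f ∈ B := fun i => mul_mem (Q.mem i) hf
  have hc : ∀ i, Q.e i * f = f * Q.e i := fun i => S.comm (Q.mem i) hf
  have hcp : ∀ i, IsStarProjection (Q.e i * f) := fun i => (Q.proj i).mul hfp (hc i)
  have h1 : ∑ k, l k ^ 2 * (⟪f (y k ξ), Q.E (y k * star (y k)) (f (y k ξ))⟫_ℂ).re =
      ∑ i, ∑ k, l k ^ 2 * ‖(star (Q.e i * f * y k) * (Q.e i * f * y k)) ξ‖ ^ 2 := by
    rw [Finset.sum_comm]
    refine Finset.sum_congr rfl fun k _ => ?_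
    rw [← Finset.mul_sum, P078.Part.E_apply, ContinuousLinearMap.sum_apply, inner_sum,
      Complex.re_sum]
    congr 1
    refine Finset.sum_congr rfl fun i _ => ?_
    have hs := (Q.proj i).isSelfAdjoint.star_eq
    have e1 : star (Q.e i * f * y k) * (Q.e i * f * y k) = star (y k) * Q.e i * f * y k := by
      rw [star_mul, (hcp i).isSelfAdjoint.star_eq, mul_assoc, ← mul_assoc (Q.e i * f),
        (hcp i).isIdempotentElem.eq]
      simp only [mul_assoc]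
    rw [e1, ← re_self]
    congr 1
    change ⟪f (y k ξ), Q.e i (y k (star (y k) (Q.e i (f (y k ξ)))))⟫_ℂ =
      ⟪star (y k) (Q.e i (f (y k ξ))), star (y k) (Q.e i (f (y k ξ)))⟫_ℂ
    rw [adj_l, g4_adj hs]
  have h2 : 3 / 1000 * Fintype.card ι * ‖f ξ‖ ^ 2 =
      ∑ i, 3 / 1000 * Fintype.card ι * ‖(Q.e i * f) ξ‖ ^ 2 := by
    rw [← Finset.mul_sum, Q.norm_sq_eq (f ξ)]
    rfl
  rw [h1, h2] at hQ
  obtain ⟨i, -, hi⟩ := Finset.exists_lt_of_sum_lt hQ
  exact ⟨Q.e i * f, hcell i, hcp i, by rw [hc, ← mul_assoc, hfp.isIdempotentElem.eq], hi⟩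

include S in
/-- fine partitions -/
theorem fine {X : K →L[ℂ] K} (hX : X ∈ N) (h0 : 0 ≤ X) {κ : ℝ} (hκ : 0 < κ) :
    ∃ (Q : P078.Part B.toStarSubalgebra) (c : Q.ι → ℝ),
      ∑ j, ‖Q.e j (X (Q.e j ξ)) - ((c j : ℝ) : ℂ) • Q.e j ξ‖ ^ 2 ≤ κ := by
  obtain ⟨s, hs⟩ : ∃ s : ℝ, s = Real.sqrt κ / 2 := ⟨_, rfl⟩
  have hs0 : 0 < s := by rw [hs]; positivity
  obtain ⟨Q0, c0, hc0⟩ := exists_simple (S.Emem X hX) (S.Epos X hX h0) hs0
  have := S.neBot
  obtain ⟨Q, hQ1, hQ2⟩ := ((P078.Part.eventually_finer Q0).and (S.Estrong X hX s hs0)).exists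
  have hε : ∀ i j, ∃ ε : ℝ, Q0.e i * Q.e j = ((ε : ℝ) : ℂ) • Q.e j := by
    intro i j
    rcases hQ1 i j with h | h
    · exact ⟨1, by rw [h]; simp⟩
    · exact ⟨0, by rw [h]; simp⟩
  choose ε hε using hε
  obtain ⟨σ, hσ⟩ : ∃ σ, σ = ∑ i, ((c0 i : ℝ) : ℂ) • Q0.e i := ⟨_, rfl⟩
  refine ⟨Q, fun j => ∑ i, c0 i * ε i j, ?_⟩
  have h1 : ∀ j, Q.e j (X (Q.e j ξ)) - (((∑ i, c0 i * ε i j : ℝ)) : ℂ) • Q.e j ξ =
      Q.e j ((Q.E X - σ) ξ) := by
    intro j
    have e1 : Q.e j * σ = (((∑ i, c0 i * ε i j : ℝ)) : ℂ) • Q.e j := by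
      rw [hσ, Finset.mul_sum, Complex.ofReal_sum, Finset.sum_smul]
      refine Finset.sum_congr rfl fun i _ => ?_
      rw [mul_smul_comm, S.comm (Q.mem j) (Q0.mem i), hε, smul_smul, Complex.ofReal_mul]
    rw [← ContinuousLinearMap.mul_apply (Q.e j) (Q.E X - σ), mul_sub, Q.e_mul_E, e1]
    rfl
  simp only [h1]
  rw [← Q.norm_sq_eq]
  have h2 : ‖(Q.E X - σ) ξ‖ ≤ s + s := by
    have e : (Q.E X - σ) ξ = (Q.E X ξ - S.E X ξ) + (S.E X - σ) ξ := by
      simp only [ContinuousLinearMap.sub_apply]; abel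
    rw [e]
    refine (norm_add_le _ _).trans (add_le_add hQ2 ?_)
    have := (S.E X - σ).le_opNorm ξ
    rw [S.D.norm_xi, mul_one] at this
    rw [← hσ] at hc0
    exact this.trans hc0
  have h3 : (s + s) ^ 2 = κ := by
    rw [hs, add_halves, Real.sq_sqrt hκ.le]
  rw [← h3]
  exact pow_le_pow_left₀ (norm_nonneg _) h2 2

end Std

end Vale.Agent.N078T
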