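import Vale.Agent.N078.T3B

/-! P078, growth for every inclusion: sampling, truncation, and the affinity lemma. -/

set_option linter.all false

open Filter Topology
open scoped ComplexConjugate InnerProductSpace BoundedContinuousFunction

namespace Vale.Agent.N078T

open Vale.Agent.P132 (ModData g4_adj g4_cfc_mem)

universe u

variable {K : Type u} [NormedAddCommGroup K] [InnerProductSpace ℂ K] [CompleteSpace K]

theorem norm_add_sq' (u v : K) : ‖u + v‖ ^ 2 = ‖u‖ ^ 2 + 2 * (⟪u, v⟫_ℂ).re + ‖v‖ ^ 2 :=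
  norm_add_sq (𝕜 := ℂ) u v

theorem re_star_mul (c : K →L[ℂ] K) (u v : K) : ⟪u, (star c * c) v⟫_ℂ = ⟪c u, c v⟫_ℂ :=
  adj_r c u (c v)

/-- step (D): truncation -/
theorem trunc {N : VonNeumannAlgebra K} {ξ : K} (D : ModData N ξ) {c : K →L[ℂ] K} (hc : c ∈ N)
    {l : ℝ} (hl : 0 < l) (hw : ‖D.Rm c ξ - ((l : ℝ) : ℂ) • c ξ‖ ≤ 1 / 20 * l * ‖c ξ‖) :
    ∃ G ∈ N, (∀ e, Commute (star c * c) e → Commute G e) ∧ ‖c * G‖ ≤ 1 ∧
      l * (17 / 20 * ‖c ξ‖ ^ 2 - 2 * ‖(star c * c) ξ‖ ^ 2) ≤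
        (⟪(c * G) ξ, D.Rm (c * G) ξ⟫_ℂ).re := by
  obtain ⟨T, hT⟩ : ∃ T, T = star c * c := ⟨_, rfl⟩
  have hT0 : 0 ≤ T := by rw [hT]; exact star_mul_self_nonneg c
  have hTs : IsSelfAdjoint T := IsSelfAdjoint.of_nonneg hT0
  have hTN : T ∈ N := by rw [hT]; exact mul_mem (star_mem hc) hc
  obtain ⟨G, hG⟩ : ∃ G, G = cfc (fun t : ℝ => (1 + |t|)⁻¹) T := ⟨_, rfl⟩
  have hcont : Continuous fun t : ℝ => (1 + |t|)⁻¹ :=
    Continuous.inv₀ (by fun_prop) fun t => by positivity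
  have hTG : (1 + T) * G = 1 := by
    have h1 : 1 + T = cfc (fun t : ℝ => 1 + t) T := by
      rw [cfc_const_add 1 (fun t : ℝ => t) T, cfc_id' ℝ T, map_one]
    rw [h1, hG, ← cfc_mul _ _ T (by fun_prop) hcont.continuousOn, ← cfc_one (R := ℝ) T]
    refine cfc_congr fun t ht => ?_
    have h2 : 0 ≤ t := spectrum_nonneg_of_nonneg hT0 ht
    change (1 + t) * (1 + |t|)⁻¹ = 1
    rw [abs_of_nonneg h2, mul_inv_cancel₀ (by positivity)]
  have hdec : ∀ η, η = G η + T (G η) := fun η => by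
    have := congrArg (fun X : K →L[ℂ] K => X η) hTG
    exact this.symm
  have hq : ∀ ρ, (⟪ρ, T ρ⟫_ℂ).re = ‖c ρ‖ ^ 2 := fun ρ => by rw [hT, re_star_mul, re_self]
  have key : ∀ ρ, ‖ρ + T ρ‖ ^ 2 = ‖ρ‖ ^ 2 + 2 * ‖c ρ‖ ^ 2 + ‖T ρ‖ ^ 2 := fun ρ => by
    rw [norm_add_sq', hq]
  have hGN : G ∈ N := by rw [hG]; exact g4_cfc_mem N hTN _
  refine ⟨G, hGN, fun e he => ?_, ?_, ?_⟩
  · rw [hG]
    rw [← hT] at he
    exact he.cfc_real _
  · refine ContinuousLinearMap.opNorm_le_bound _ zero_le_one fun η => ?_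
    have h1 := key (G η)
    rw [← hdec η] at h1
    rw [one_mul, ← sq_le_sq₀ (norm_nonneg _) (norm_nonneg _), ContinuousLinearMap.mul_apply]
    nlinarith [sq_nonneg ‖G η‖, sq_nonneg ‖T (G η)‖, sq_nonneg ‖c (G η)‖]
  · obtain ⟨θ, hθ⟩ : ∃ θ, θ = G ξ := ⟨_, rfl⟩
    have hξ : ξ = θ + T θ := by rw [hθ]; exact hdec ξ
    have h1 : ‖c θ‖ ≤ ‖c ξ‖ := by
      have e1 : c ξ = c θ + c (T θ) := by rw [← map_add, ← hξ]
      have e2 : (⟪c θ, c (T θ)⟫_ℂ).re = ‖T θ‖ ^ 2 := by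
        rw [← re_star_mul, ← hT, ← g4_adj hTs.star_eq, re_self]
      rw [← sq_le_sq₀ (norm_nonneg _) (norm_nonneg _), e1, norm_add_sq', e2]
      nlinarith [sq_nonneg ‖T θ‖, sq_nonneg ‖c (T θ)‖]
    have h2 : ‖T θ‖ ≤ ‖T ξ‖ := by
      have e1 : T ξ = T θ + T (T θ) := by rw [← map_add, ← hξ]
      rw [← sq_le_sq₀ (norm_nonneg _) (norm_nonneg _), e1, key]
      nlinarith [sq_nonneg ‖T (T θ)‖, sq_nonneg ‖c (T θ)‖]
    have h3 : ‖c ξ‖ ^ 2 - ‖T ξ‖ ^ 2 ≤ (⟪c θ, c ξ⟫_ℂ).re := by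
      have e1 : θ = ξ - T θ := by rw [eq_sub_iff_add_eq, ← hξ]
      rw [← re_star_mul, ← hT]
      conv_rhs => rw [e1]
      rw [inner_sub_left, Complex.sub_re, hq]
      have := re_le (T θ) (T ξ)
      nlinarith [norm_nonneg (T ξ)]
    have h4 : l * (⟪c θ, c ξ⟫_ℂ).re - 1 / 20 * l * ‖c ξ‖ ^ 2 ≤ (⟪c θ, D.Rm c ξ⟫_ℂ).re := by
      have e1 : D.Rm c ξ = ((l : ℝ) : ℂ) • c ξ + (D.Rm c ξ - ((l : ℝ) : ℂ) • c ξ) := by abel
      rw [e1, inner_add_right, inner_smul_right, Complex.add_re, Complex.re_ofReal_mul]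
      have h5 := re_ge (c θ) (D.Rm c ξ - ((l : ℝ) : ℂ) • c ξ)
      have h6 := mul_le_mul h1 hw (norm_nonneg _) (norm_nonneg _)
      nlinarith
    have h5 : (⟪c ξ, D.Rm c ξ⟫_ℂ).re ≤ 21 / 20 * l * ‖c ξ‖ ^ 2 := by
      have h6 := re_le (c ξ) (D.Rm c ξ)
      have h7 := norm_sub_norm_le (D.Rm c ξ) (((l : ℝ) : ℂ) • c ξ)
      rw [norm_smul, Complex.norm_real, Real.norm_of_nonneg hl.le] at h7
      have h8 : ‖D.Rm c ξ‖ ≤ 21 / 20 * l * ‖c ξ‖ := by linarith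
      nlinarith [norm_nonneg (c ξ)]
    have h6 := s_lower D (mul_mem hc hGN) hc
    rw [ContinuousLinearMap.mul_apply, ← hθ] at h6
    rw [ContinuousLinearMap.mul_apply c G, ← hθ, ← hT]
    nlinarith [mul_le_mul_of_nonneg_left h3 hl.le]

theorem cell_ineq {x φ b δ c τ : ℝ} (hx : 0 ≤ x) (hφ : 0 ≤ φ) (hb0 : 0 ≤ b) (hδ : 0 ≤ δ)
    (hτ : 0 < τ) (hτ1 : τ ≤ 1) (hb : δ = b - 2 * c * x + c ^ 2 * φ) (hcs : x ^ 2 ≤ b * φ) :
    ∃ t, 0 < t ∧ t ≤ 1 ∧ b / t ≤ δ / τ + x / 20 + b ∧ t * φ ≤ τ * φ + 20 * x := by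
  have hδτ : 0 ≤ δ / τ := by positivity
  rcases hφ.eq_or_lt with h0 | h0
  · have h1 : x = 0 := by
      rw [← h0, mul_zero] at hcs
      exact pow_eq_zero_iff two_ne_zero |>.1 (le_antisymm hcs (sq_nonneg _))
    refine ⟨τ, hτ, hτ1, ?_, by linarith⟩
    rw [hb, h1, ← h0]
    simp only [mul_zero, sub_zero, add_zero, zero_div]
    linarith
  · obtain ⟨a, ha⟩ : ∃ a, a = x / φ := ⟨_, rfl⟩
    have hxa : x = a * φ := by rw [ha]; field_simp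
    have ha0 : 0 ≤ a := by rw [ha]; positivity
    have h1 : b ≤ δ + a * x := by
      rw [hb, hxa]
      nlinarith [mul_nonneg h0.le (sq_nonneg (a - c))]
    by_cases h2 : 1 ≤ 20 * a
    · refine ⟨1, one_pos, le_rfl, ?_, ?_⟩
      · rw [div_one]; linarith
      · nlinarith
    · by_cases h3 : 20 * a ≤ τ
      · refine ⟨τ, hτ, hτ1, ?_, by linarith⟩
        have h4 : b / τ ≤ δ / τ + x / 20 := by
          rw [div_le_iff₀ hτ, add_mul, div_mul_cancel₀ _ hτ.ne']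
          nlinarith
        linarith
      · push Not at h2 h3
        have h4 : 0 < 20 * a := hτ.trans h3
        refine ⟨20 * a, h4, h2.le, ?_, by nlinarith⟩
        have h5 : δ / (20 * a) ≤ δ / τ := div_le_div_of_nonneg_left hδ hτ h3.le
        have h6 : b / (20 * a) ≤ δ / (20 * a) + x / 20 := by
          rw [div_le_iff₀ h4, add_mul, div_mul_cancel₀ _ h4.ne']
          nlinarith
        linarith

namespace Std

variable {N B : VonNeumannAlgebra K} {ξ : K} (S : Std N B ξ)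

/-- steps (C) and (D) -/
theorem stepCD {b q g : K →L[ℂ] K} (hb : b ∈ N) (hq : q ∈ B) (hqp : IsStarProjection q)
    (hbq : b * q = b) (hgp : IsStarProjection g) (hgb : g * b = b) {l : ℝ} (hl : 0 < l)
    (hw : ∀ w ∈ B, ‖S.D.Rm (b * w) ξ - ((l : ℝ) : ℂ) • (b * w) ξ‖ ≤ 1 / 20 * l * ‖(b * w) ξ‖)
    {σ : ℝ} (hσ : 0 < σ) :
    ∃ e ∈ B, IsStarProjection e ∧ q * e = e ∧ ∃ v ∈ N, e * v = v ∧ v * g = v ∧ ‖v‖ ≤ 1 ∧
      l ^ 2 * (1 / 2 * ‖b ξ‖ ^ 2 - 2 * ‖(star b * b) ξ‖ ^ 2 - σ) ≤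
        l * (⟪v ξ, S.D.Rm v ξ⟫_ℂ).re - 1 / 80 * (l ^ 2 * ‖e ξ‖ ^ 2) := by
  classical
  obtain ⟨X, hX⟩ : ∃ X, X = star b * b := ⟨_, rfl⟩
  have hXN : X ∈ N := by rw [hX]; exact mul_mem (star_mem hb) hb
  obtain ⟨τ, hτ⟩ : ∃ τ, τ = min 1 σ := ⟨_, rfl⟩
  have hτ0 : 0 < τ := by rw [hτ]; positivity
  have hτ1 : τ ≤ 1 := by rw [hτ]; exact min_le_left _ _
  have hτσ : τ ≤ σ := by rw [hτ]; exact min_le_right _ _
  obtain ⟨Q, c, hQ⟩ := S.fine hXN (by rw [hX]; exact star_mul_self_nonneg b)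
    (κ := τ * σ / 4) (by positivity)
  have hP := partOP Q
  have hR := hP.rm S.D
  have hpB : ∀ j, Q.e j ∈ B := Q.mem
  have hpN : ∀ j, Q.e j ∈ N := fun j => S.mem (hpB j)
  obtain ⟨x, hx⟩ : ∃ x : Q.ι → ℝ, ∀ j, x j = ‖S.D.Rm (Q.e j) (b ξ)‖ ^ 2 := ⟨_, fun _ => rfl⟩
  obtain ⟨φ, hφ⟩ : ∃ φ : Q.ι → ℝ, ∀ j, φ j = ‖Q.e j ξ‖ ^ 2 := ⟨_, fun _ => rfl⟩
  obtain ⟨β, hβ⟩ : ∃ β : Q.ι → Q.ι → ℝ, ∀ i j, β i j = ‖S.D.Rm (Q.e j) (Q.e i (X ξ))‖ ^ 2 :=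
    ⟨_, fun _ _ => rfl⟩
  obtain ⟨δ, hδ⟩ : ∃ δ : Q.ι → ℝ, ∀ j,
    δ j = ‖Q.e j (X (Q.e j ξ)) - ((c j : ℝ) : ℂ) • Q.e j ξ‖ ^ 2 := ⟨_, fun _ => rfl⟩
  simp only [← hδ] at hQ
  have ht : ∀ j, ∃ t, 0 < t ∧ t ≤ 1 ∧ β j j / t ≤ δ j / τ + x j / 20 + β j j ∧
      t * φ j ≤ τ * φ j + 20 * x j := by
    intro j
    have e1 : β j j = ‖Q.e j (X (Q.e j ξ))‖ ^ 2 := by
      rw [hβ, S.mx hXN (hpB j), S.D.comm_Rm (hpN j) (hpN j)]
    have e2 : (⟪Q.e j ξ, Q.e j (X (Q.e j ξ))⟫_ℂ).re = x j := by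
      rw [← g4_adj (Q.proj j).isSelfAdjoint.star_eq, ← ContinuousLinearMap.mul_apply (Q.e j),
        Q.e_mul_self, hX, re_star_mul, re_self, hx, S.mx hb (hpB j)]
    refine cell_ineq (c := c j) (by rw [hx]; positivity) (by rw [hφ]; positivity)
      (by rw [hβ]; positivity) (by rw [hδ]; positivity) hτ0 hτ1 ?_ ?_
    · rw [hδ, e1, ← e2, hφ, norm_sub_sq (𝕜 := ℂ), inner_smul_right, norm_smul, Complex.norm_real,
        mul_pow, Real.norm_eq_abs, sq_abs, re_symm]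
      simp only [RCLike.re_to_complex, Complex.re_ofReal_mul]
      ring
    · rw [e1, ← e2, hφ, ← mul_pow, mul_comm]
      refine sq_le_sq' (re_ge _ _) (re_le _ _)
  choose t ht0 ht1 ht2 ht3 using ht
  obtain ⟨w, hw01, hw2⟩ := exists_sample (fun j => 17 / 20 * x j / t j - 1 / 80 * φ j)
    (fun i j => 2 * β i j / (t i * t j)) t fun j => ⟨(ht0 j).le, ht1 j⟩
  have hww : ∀ j, w j ^ 2 = w j := fun j => by rcases hw01 j with h | h <;> rw [h] <;> norm_num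
  obtain ⟨a, ha⟩ : ∃ a : Q.ι → ℝ, ∀ j, a j = w j / Real.sqrt (t j) := ⟨_, fun _ => rfl⟩
  have ha2 : ∀ j, a j ^ 2 = w j / t j := fun j => by
    rw [ha, div_pow, hww, Real.sq_sqrt (ht0 j).le]
  have haw : ∀ j, a j * w j = a j := fun j => by
    rw [ha, div_mul_eq_mul_div, ← sq, hww]
  obtain ⟨W, hW⟩ : ∃ W, W = ∑ j, ((a j : ℝ) : ℂ) • Q.e j := ⟨_, rfl⟩
  obtain ⟨u, hu⟩ : ∃ u, u = ∑ j, ((w j : ℝ) : ℂ) • Q.e j := ⟨_, rfl⟩
  have hWB : W ∈ B := by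
    rw [hW]; exact sum_mem fun j _ => B.toStarSubalgebra.smul_mem (hpB j) _
  have huB : u ∈ B := by
    rw [hu]; exact sum_mem fun j _ => B.toStarSubalgebra.smul_mem (hpB j) _
  have hWs : star W = W := by rw [hW, hP.comb_star]
  have hup : IsStarProjection u := by
    refine ⟨?_, ?_⟩
    · change u * u = u
      rw [hu, hP.comb_comb]
      refine Finset.sum_congr rfl fun j _ => ?_
      rw [← Complex.ofReal_mul, ← sq, hww]
    · change star u = u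
      rw [hu, hP.comb_star]
  have hWu : W * u = W := by
    rw [hW, hu, hP.comb_comb]
    refine Finset.sum_congr rfl fun j _ => ?_
    rw [← Complex.ofReal_mul, haw]
  have hRW : S.D.Rm W = ∑ j, ((a j : ℝ) : ℂ) • S.D.Rm (Q.e j) := by
    rw [hW, S.D.Rm_sum]
    exact Finset.sum_congr rfl fun j _ => S.D.Rm_smul _ _
  have hcN : b * W ∈ N := mul_mem hb (S.mem hWB)
  obtain ⟨G, hGN, hGc, hGn, hGs⟩ := trunc S.D hcN hl (hw W hWB)
  have hqu : IsStarProjection (q * u) := hqp.mul hup (S.comm hq huB)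
  have hce : b * W * (q * u) = b * W := by
    rw [mul_assoc, ← mul_assoc W, S.comm hWB hq, mul_assoc, hWu, ← mul_assoc, hbq]
  have hGe : Commute G (q * u) := by
    refine hGc _ ?_
    have h1 : star (b * W) * (b * W) * (q * u) = star (b * W) * (b * W) := by
      rw [mul_assoc, hce]
    have h2 := congrArg star h1
    rw [star_mul, hqu.isSelfAdjoint.star_eq, (IsSelfAdjoint.star_mul_self _).star_eq] at h2
    exact h1.trans h2.symm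
  refine ⟨q * u, mul_mem hq huB, hqu, by rw [← mul_assoc, hqp.isIdempotentElem.eq],
    star (b * W * G), star_mem (mul_mem hcN hGN), ?_, ?_, by rw [norm_star]; exact hGn, ?_⟩
  · rw [← hqu.isSelfAdjoint.star_eq, ← star_mul, mul_assoc, hGe.eq, ← mul_assoc, hce]
  · rw [← hgp.isSelfAdjoint.star_eq, ← star_mul, ← mul_assoc, ← mul_assoc, hgb]
  rw [s_star]
  have e1 : ‖(b * W) ξ‖ ^ 2 = ∑ j, w j / t j * x j := by
    rw [ContinuousLinearMap.mul_apply, S.mx hb hWB, hRW, hR.norm_comb]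
    exact Finset.sum_congr rfl fun j _ => by rw [ha2, hx]
  have e2 : ‖(star (b * W) * (b * W)) ξ‖ ^ 2 = ∑ i, ∑ j, w i / t i * (w j / t j * β i j) := by
    have e3 : (star (b * W) * (b * W)) ξ = W (S.D.Rm W (X ξ)) := by
      rw [star_mul, hWs, ← S.mx hXN hWB, hX]; rfl
    rw [e3]
    conv_lhs => rw [show W (S.D.Rm W (X ξ)) = (∑ j, ((a j : ℝ) : ℂ) • Q.e j) (S.D.Rm W (X ξ)) by
      rw [← hW]]
    rw [hP.norm_comb]
    refine Finset.sum_congr rfl fun i _ => ?_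
    rw [S.D.comm_Rm (hpN i) (S.mem hWB), hRW, hR.norm_comb, ha2, Finset.mul_sum]
    exact Finset.sum_congr rfl fun j _ => by rw [ha2, hβ]
  have e3 : ‖(q * u) ξ‖ ^ 2 ≤ ∑ j, w j * φ j := by
    have h1 : ‖u ξ‖ ^ 2 = ∑ j, w j * φ j := by
      rw [hu, hP.norm_comb]
      exact Finset.sum_congr rfl fun j _ => by rw [hww, hφ]
    rw [← h1]
    exact pow_le_pow_left₀ (norm_nonneg _) (norm_proj_le hqp _) 2
  have e4 : ∑ j, x j = ‖b ξ‖ ^ 2 := by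
    have h1 := hR.norm_comb (fun _ => 1) (b ξ)
    simp only [Complex.ofReal_one, one_smul, one_pow, one_mul] at h1
    rw [← S.D.Rm_sum, Q.sum_eq, S.D.Rm_one] at h1
    simp only [hx]
    exact h1.symm
  have e5 : ∑ i, ∑ j, β i j ≤ ‖X ξ‖ ^ 2 := by
    refine le_trans (Finset.sum_le_sum fun i _ => ?_) (hP.bessel (X ξ))
    simp only [hβ]
    exact hR.bessel _
  have e6 : ∑ j, φ j ≤ 1 := by
    have := hP.bessel ξ
    rw [S.D.norm_xi, one_pow] at this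
    simpa only [hφ] using this
  have e7 : ∑ i, w i * (17 / 20 * x i / t i - 1 / 80 * φ i) -
      ∑ i, ∑ j, w i * w j * (2 * β i j / (t i * t j)) =
      17 / 20 * ∑ j, w j / t j * x j - 1 / 80 * ∑ j, w j * φ j -
        2 * ∑ i, ∑ j, w i / t i * (w j / t j * β i j) := by
    rw [Finset.mul_sum, Finset.mul_sum, Finset.mul_sum, ← Finset.sum_sub_distrib,
      ← Finset.sum_sub_distrib, ← Finset.sum_sub_distrib]
    refine Finset.sum_congr rfl fun i _ => ?_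
    congr 1
    · ring
    · rw [Finset.mul_sum]
      exact Finset.sum_congr rfl fun j _ => by ring
  have e8 : ∑ i, ∑ j, t i * t j * (2 * β i j / (t i * t j)) = 2 * ∑ i, ∑ j, β i j := by
    rw [Finset.mul_sum]
    refine Finset.sum_congr rfl fun i _ => ?_
    rw [Finset.mul_sum]
    refine Finset.sum_congr rfl fun j _ => ?_
    have := (ht0 i).ne'
    have := (ht0 j).ne'
    field_simp
  have e9 : 1 / 2 * ∑ j, x j - τ / 80 * ∑ j, φ j - 2 / τ * ∑ j, δ j ≤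
      ∑ i, t i * (17 / 20 * x i / t i - 1 / 80 * φ i - 2 * β i i / (t i * t i)) +
        ∑ i, t i * t i * (2 * β i i / (t i * t i)) := by
    rw [Finset.mul_sum, Finset.mul_sum, Finset.mul_sum, ← Finset.sum_sub_distrib,
      ← Finset.sum_sub_distrib, ← Finset.sum_add_distrib]
    refine Finset.sum_le_sum fun j _ => ?_
    have h1 := (ht0 j).ne'
    have h2 : t j * (17 / 20 * x j / t j - 1 / 80 * φ j - 2 * β j j / (t j * t j)) +
        t j * t j * (2 * β j j / (t j * t j)) =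
        17 / 20 * x j - 1 / 80 * (t j * φ j) - 2 * (β j j / t j) + 2 * β j j := by
      field_simp
    have h3 : 2 / τ * δ j = 2 * (δ j / τ) := by ring
    rw [h2, h3]
    linarith [ht2 j, ht3 j]
  have e10 : 2 / τ * ∑ j, δ j ≤ σ / 2 := by
    refine (mul_le_mul_of_nonneg_left hQ (by positivity)).trans (le_of_eq ?_)
    field_simp
    norm_num
  have e11 : τ / 80 * ∑ j, φ j ≤ σ / 2 := by nlinarith
  rw [e7, e8, ← e1, ← e2] at hw2
  rw [← hX]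
  have h1 : 1 / 2 * ‖b ξ‖ ^ 2 - 2 * ‖X ξ‖ ^ 2 - σ ≤ 17 / 20 * ‖(b * W) ξ‖ ^ 2 -
      2 * ‖(star (b * W) * (b * W)) ξ‖ ^ 2 - 1 / 80 * ‖(q * u) ξ‖ ^ 2 := by
    linarith
  have h2 := mul_le_mul_of_nonneg_left h1 (sq_nonneg l)
  have h3 := mul_le_mul_of_nonneg_left hGs hl.le
  nlinarith

/-- the affinity lemma -/
theorem affinity {ι : Type*} [Fintype ι] [Nonempty ι] {q : ι → K →L[ℂ] K} (hq : ∀ k, q k ∈ B)
    (hqp : ∀ k, IsStarProjection (q k)) {f : K →L[ℂ] K} (hf : f ∈ B) (hfp : IsStarProjection f)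
    (hf0 : f ≠ 0) (h : ∀ g ∈ B, IsStarProjection g → g ≠ 0 → f * g = g →
      ∀ k, ∃ x ∈ N, g * x * q k ≠ 0) :
    ∃ g ∈ B, IsStarProjection g ∧ 0 < ‖g ξ‖ ^ 2 ∧ ∃ (e v : ι → K →L[ℂ] K) (l : ι → ℝ),
      (∀ k, 0 < l k ∧ e k ∈ B ∧ IsStarProjection (e k) ∧ q k * e k = e k ∧ v k ∈ N ∧
        e k * v k = v k ∧ v k * g = v k ∧ ‖v k‖ ≤ 1) ∧
      1 / 200 * (Fintype.card ι * ‖g ξ‖ ^ 2) + 1 / 80 * ∑ k, l k ^ 2 * ‖e k ξ‖ ^ 2 ≤
        ∑ k, l k * (⟪v k ξ, S.D.Rm (v k) ξ⟫_ℂ).re := by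
  obtain ⟨f', hf', hfp', hf0', hG⟩ := S.iterA hq hqp hf hfp hf0 h
  choose y hy l hyq hl hw hn hlow using hG
  obtain ⟨g, hg, hgp, hfg, hB⟩ := S.stepB hy hl hw hn hf' hfp' hf0'
  have hg0 : 0 < ‖g ξ‖ ^ 2 := by
    by_contra h0
    have h1 : ‖g ξ‖ ^ 2 = 0 := le_antisymm (not_lt.1 h0) (sq_nonneg _)
    rw [h1, mul_zero] at hB
    exact absurd hB (not_lt.2 (Finset.sum_nonneg fun k _ => by positivity))
  have hCD := fun k => S.stepCD (b := g * y k) (mul_mem (S.mem hg) (hy k)) (hq k) (hqp k)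
    (by rw [mul_assoc, hyq]) hgp (by rw [← mul_assoc, hgp.isIdempotentElem.eq]) (hl k)
    (hw k g hg) (σ := 3 / 10000 * ‖g ξ‖ ^ 2 / l k ^ 2) (by have := hl k; positivity)
  choose e he hep hqe v hv hev hvg hvn hs using hCD
  refine ⟨g, hg, hgp, hg0, e, v, l, fun k => ⟨hl k, he k, hep k, hqe k, hv k, hev k, hvg k, hvn k⟩,
    ?_⟩
  have h1 : ∀ k, 11 / 1000 * ‖g ξ‖ ^ 2 -
      2 * (l k ^ 2 * ‖(star (g * y k) * (g * y k)) ξ‖ ^ 2) + 1 / 80 * (l k ^ 2 * ‖e k ξ‖ ^ 2) ≤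
      l k * (⟪v k ξ, S.D.Rm (v k) ξ⟫_ℂ).re := by
    intro k
    have h2 := (Win.bounds S (hl k) (hw k) hg (one_mem B)).2
    rw [mul_one] at h2
    have h3 := pow_le_pow_left₀ (norm_nonneg _) h2 2
    have h4 := hlow k g hg hgp hfg
    have h5 := hs k
    have h6 : l k ^ 2 * (3 / 10000 * ‖g ξ‖ ^ 2 / l k ^ 2) = 3 / 10000 * ‖g ξ‖ ^ 2 := by
      have := (hl k).ne'
      field_simp
    rw [mul_sub, h6] at h5
    nlinarith
  have h2 := Finset.sum_le_sum fun k (_ : k ∈ Finset.univ) => h1 k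
  rw [Finset.sum_add_distrib, Finset.sum_sub_distrib, Finset.sum_const, Finset.card_univ,
    nsmul_eq_mul, ← Finset.mul_sum, ← Finset.mul_sum] at h2
  linarith

end Std

end Vale.Agent.N078T
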