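import Vale.Agent.N078.T3C

/-! P078, growth for every inclusion: the lower bound in the standard form. -/

set_option linter.all false

open Filter Topology
open scoped ComplexConjugate InnerProductSpace BoundedContinuousFunction

namespace Vale.Agent.N078T

open Vale.Agent.P132 (ModData g4_adj g4_cfc_mem)
open Vale.Agent.P078.C (IsPart pinch)

universe u

variable {K : Type u} [NormedAddCommGroup K] [InnerProductSpace ℂ K] [CompleteSpace K]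

/-- `n` orthogonal projections of `A` under `w`, all seen from every piece of `f ≤ w` -/
def Inp (M A : VonNeumannAlgebra K) (w : K →L[ℂ] K) (n : ℕ) : Prop :=
  ∃ (q : Fin n → K →L[ℂ] K) (f : K →L[ℂ] K),
    (∀ k, q k ∈ A ∧ IsStarProjection (q k) ∧ w * q k = q k) ∧ (∀ i j, i ≠ j → q i * q j = 0) ∧
    f ∈ A ∧ IsStarProjection f ∧ f ≠ 0 ∧ w * f = f ∧
    ∀ g ∈ A, IsStarProjection g → g ≠ 0 → f * g = g → ∀ k, ∃ x ∈ M, g * x * q k ≠ 0

/-- a lower bound for pinchings, for the square `n` of the seminorm of a state -/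
def Low (M A : VonNeumannAlgebra K) (n : (K →L[ℂ] K) → ℝ) (γ : ℝ) (r : ℕ) : Prop :=
  ∃ x ∈ M, IsSelfAdjoint x ∧ ‖x‖ ≤ 1 ∧ ∃ v ∈ A, 0 < n v ∧
    (∀ (P : Fin r → K →L[ℂ] K) (a : K →L[ℂ] K), IsPart A P → a ∈ A →
      γ * n v ≤ n ((pinch P x - a) * v)) ∧
    ∀ η : ℝ, 0 < η → ∃ κ : ℝ, 0 < κ ∧ ∀ s ∈ M, ‖s‖ ≤ 1 → n s ≤ κ → n (s * v) ≤ η ∧
      ∀ (P : Fin r → K →L[ℂ] K) (a : K →L[ℂ] K), IsPart A P → a ∈ A → ‖a‖ ≤ 1 →
        n (s * ((pinch P x - a) * v)) ≤ η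

theorem partOP' {A : VonNeumannAlgebra K} {r : ℕ} {P : Fin r → K →L[ℂ] K} (hP : IsPart A P) :
    OP P := ⟨fun i => (hP.1 i).2, hP.2.1⟩

theorem apply_le {a : K →L[ℂ] K} (ha : ‖a‖ ≤ 1) (v : K) : ‖a v‖ ≤ ‖v‖ := by
  have := a.le_opNorm v
  nlinarith [norm_nonneg v]

namespace Std

variable {N B : VonNeumannAlgebra K} {ξ : K} (S : Std N B ξ)

theorem s_pair {a b p : K →L[ℂ] K} (ha : a ∈ N) (hb : b ∈ N) (hp : p ∈ B)
    (hpp : IsStarProjection p) :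
    ⟪(p * a * star b * p) ξ, S.D.Rm (p * a * star b * p) ξ⟫_ℂ =
      ⟪star b (S.D.Rm b (p ξ)), star a (S.D.Rm a (p ξ))⟫_ℂ := by
  have hpN := S.mem hp
  have hps := hpp.isSelfAdjoint.star_eq
  have hRp : star (S.D.Rm p) = S.D.Rm p := S.D.Rm_sa hps
  have h0 : p (p ξ) = p ξ := by rw [← ContinuousLinearMap.mul_apply, hpp.isIdempotentElem.eq]
  have h1 : S.D.Rm p (p ξ) = p ξ := by rw [← S.mx hpN hp, h0]
  have e1 : S.D.Rm (p * a * star b * p) ξ =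
      S.D.Rm p (S.D.Rm (star b) (S.D.Rm a (p ξ))) := by
    rw [S.D.Rm_mul, S.D.Rm_mul, S.D.Rm_mul, ← S.rx hp]; rfl
  have e2 : S.D.Rm p ((p * a * star b * p) ξ) = p (a (star b (p ξ))) := by
    change S.D.Rm p (p (a (star b (p ξ)))) = _
    rw [← S.D.comm_Rm hpN hpN, ← S.D.comm_Rm ha hpN, ← S.D.comm_Rm (star_mem hb) hpN, h1]
  rw [e1, ← g4_adj hRp, e2, g4_adj hps, S.D.comm_Rm hpN (star_mem hb), S.D.comm_Rm hpN ha, h0,
    ← adj_r a, S.D.comm_Rm (star_mem ha) (star_mem hb), ← S.D.star_Rm b, adj_r,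
    ← S.D.comm_Rm (star_mem hb) hb]

include S in
theorem small {x v : K →L[ℂ] K} (hx : x ∈ N) (hv : v ∈ B) {r : ℕ} (hr : 0 < r) {η : ℝ}
    (hη : 0 < η) : ∃ κ : ℝ, 0 < κ ∧ ∀ s ∈ N, ‖s‖ ≤ 1 → ‖s ξ‖ ^ 2 ≤ κ → ‖(s * v) ξ‖ ^ 2 ≤ η ∧
      ∀ (P : Fin r → K →L[ℂ] K) (a : K →L[ℂ] K), IsPart B P → a ∈ B → ‖a‖ ≤ 1 →
        ‖(s * ((pinch P x - a) * v)) ξ‖ ^ 2 ≤ η := by
  have hr0 : (0 : ℝ) < r := by exact_mod_cast hr
  obtain ⟨ρ, hρ⟩ : ∃ ρ, ρ = Real.sqrt η := ⟨_, rfl⟩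
  have hρ0 : 0 < ρ := by rw [hρ]; positivity
  have hρ2 : ρ ^ 2 = η := by rw [hρ, Real.sq_sqrt hη.le]
  obtain ⟨_, ⟨y, hy, rfl⟩, hd⟩ := Metric.mem_closure_iff.1 (S.D.cyc' ((x * v) ξ)) (ρ / (2 * r))
    (by positivity)
  rw [dist_eq_norm] at hd
  obtain ⟨C, hC⟩ : ∃ C : ℝ, C = r * ‖y‖ + ‖v‖ + 1 := ⟨_, rfl⟩
  have hC0 : 0 < C := by rw [hC]; positivity
  refine ⟨(ρ / (2 * C)) ^ 2, by positivity, fun s hs hs1 hsκ => ?_⟩
  have h1 : ‖s ξ‖ ≤ ρ / (2 * C) := (sq_le_sq₀ (norm_nonneg _) (by positivity)).1 hsκ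
  rw [le_div_iff₀ (by positivity)] at h1
  have hR : ∀ b ∈ B, ‖s (b ξ)‖ ≤ ‖b‖ * ‖s ξ‖ := fun b hb => by
    rw [S.mx hs hb]
    exact ((S.D.Rm b).le_opNorm _).trans
      (mul_le_mul_of_nonneg_right (S.D.norm_Rm_le b) (norm_nonneg _))
  have hry : 0 ≤ r * ‖y‖ * ‖s ξ‖ := by positivity
  have hvs : 0 ≤ ‖v‖ * ‖s ξ‖ := by positivity
  refine ⟨?_, fun P a hP ha ha1 => ?_⟩
  · rw [← hρ2]
    refine pow_le_pow_left₀ (norm_nonneg _) ((hR v hv).trans ?_) 2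
    rw [hC] at h1
    nlinarith [norm_nonneg (s ξ)]
  · rw [← hρ2]
    refine pow_le_pow_left₀ (norm_nonneg _) ?_ 2
    have e1 : (s * ((pinch P x - a) * v)) ξ = ∑ i, s (P i (x (P i (v ξ)))) - s ((a * v) ξ) := by
      unfold pinch
      rw [ContinuousLinearMap.mul_apply, ContinuousLinearMap.mul_apply,
        ContinuousLinearMap.sub_apply, map_sub, ContinuousLinearMap.sum_apply, map_sum]
      rfl
    have h2 : ∀ i, ‖s (P i (x (P i (v ξ))))‖ ≤ ρ / (2 * r) + ‖y‖ * ‖s ξ‖ := by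
      intro i
      have hp := (hP.1 i).1
      have hpN := S.mem hp
      have hpp := (hP.1 i).2
      have e2 : x (P i (v ξ)) = S.D.Rm (P i) ((x * v) ξ) := by
        rw [← S.mx (mul_mem hx (S.mem hv)) hp, ← ContinuousLinearMap.mul_apply (P i),
          S.comm hp hv]
        rfl
      have e3 : s (P i ((x * v) ξ)) = s (P i ((x * v) ξ - y ξ)) + y (s (P i ξ)) := by
        rw [map_sub, map_sub, ModData.comm_apply hpN hy, ModData.comm_apply hs hy]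
        abel
      rw [e2, S.D.comm_Rm hpN hpN, S.D.comm_Rm hs hpN]
      refine (norm_proj_le (((partOP' hP).rm S.D).pr i) _).trans ?_
      rw [e3]
      refine (norm_add_le _ _).trans (add_le_add ?_ ?_)
      · exact ((apply_le hs1 _).trans (norm_proj_le hpp _)).trans hd.le
      · refine (y.le_opNorm _).trans (mul_le_mul_of_nonneg_left ((hR _ hp).trans ?_)
          (norm_nonneg _))
        have := hpp.norm_le
        nlinarith [norm_nonneg (s ξ)]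
    have h3 : ‖s ((a * v) ξ)‖ ≤ ‖v‖ * ‖s ξ‖ := by
      refine (hR _ (mul_mem ha hv)).trans (mul_le_mul_of_nonneg_right ?_ (norm_nonneg _))
      have := norm_mul_le a v
      nlinarith [norm_nonneg v]
    have h4 := (norm_sum_le _ _).trans (Finset.sum_le_sum fun i (_ : i ∈ Finset.univ) => h2 i)
    rw [Finset.sum_const, Finset.card_univ, Fintype.card_fin, nsmul_eq_mul, mul_add] at h4
    have h5 : (r : ℝ) * (ρ / (2 * r)) = ρ / 2 := by field_simp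
    rw [e1]
    refine (norm_sub_le _ _).trans ?_
    rw [hC] at h1
    nlinarith [norm_nonneg (s ξ)]

include S in
/-- step (E) -/
theorem frame {m : ℕ} (h : Inp N B 1 (2 ^ m)) :
    ∃ x ∈ N, IsSelfAdjoint x ∧ ‖x‖ ≤ 1 ∧ ∃ v ∈ B, 0 < ‖v ξ‖ ^ 2 ∧ ∀ r : ℕ, 0 < r →
      ∀ (P : Fin r → K →L[ℂ] K) (a : K →L[ℂ] K), IsPart B P → a ∈ B →
        (1 / (4000 * r) - 1 / 2 ^ m) * ‖v ξ‖ ^ 2 ≤ ‖((pinch P x - a) * v) ξ‖ ^ 2 := by
  classical
  obtain ⟨q, f, hq, hqo, hf, hfp, hf0, -, hvis⟩ := h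
  haveI : Nonempty (Fin (2 ^ m)) := ⟨⟨0, by positivity⟩⟩
  obtain ⟨g, hg, hgp, hg0, e, v, l, hd, hX⟩ := S.affinity (fun k => (hq k).1)
    (fun k => (hq k).2.1) hf hfp hf0 hvis
  choose hl he hep hqe hv hev hvg hvn using hd
  obtain ⟨h, hh1, hh2, hh3⟩ := P078.exists_walsh m
  obtain ⟨n, hn⟩ : ∃ n : ℝ, n = (2 : ℝ) ^ m := ⟨_, rfl⟩
  have hn0 : 0 < n := by rw [hn]; positivity
  have hcard : (Fintype.card (Fin (2 ^ m)) : ℝ) = n := by
    rw [Fintype.card_fin, hn]; push_cast; rfl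
  rw [hcard] at hX
  rw [← hn] at hh2 ⊢
  have heo : ∀ i j, i ≠ j → e i * e j = 0 := by
    intro i j hij
    rw [← hqe i, ← hqe j, S.comm (hq i).1 (he i), mul_assoc, ← mul_assoc (q i), hqo i j hij,
      zero_mul, mul_zero]
  have hE : OP e := ⟨hep, heo⟩
  let Fr : P078.HFrame N B.toStarSubalgebra 1 g (Fin (2 ^ m)) :=
    { e := e, v := v, h := h, eA := he, eP := hep, eo := heo, ee := fun _ => one_mul _
      gM := S.mem hg, gP := hgp, eg := one_mul _, vM := hv, ev := hev, vg := hvg, vn := hvn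
      hs := hh1, h2 := fun i j => by rw [hh2, hcard], ho := hh3 }
  obtain ⟨x, hx⟩ : ∃ x, x = ∑ i, ∑ j, ((h i j : ℝ) : ℂ) • (v i * star (v j)) := ⟨_, rfl⟩
  have hxN : x ∈ N := by rw [hx]; exact Fr.x_mem
  have hsve : ∀ k, star (v k) * e k = star (v k) := Fr.sve
  have hexe : ∀ k j, e k * x * e j = ((h k j : ℝ) : ℂ) • (v k * star (v j)) := by
    intro k j
    have h1 : ∀ i, i ≠ k → e k * v i = 0 := fun i hi => by
      rw [← hev i, ← mul_assoc, heo k i hi.symm, zero_mul]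
    have h2 : ∀ i, i ≠ j → star (v i) * e j = 0 := fun i hi => by
      rw [← hsve i, mul_assoc, heo i j hi, mul_zero]
    rw [hx, Finset.mul_sum, Finset.sum_mul, Finset.sum_eq_single k, Finset.mul_sum,
      Finset.sum_mul, Finset.sum_eq_single j]
    · rw [mul_smul_comm, smul_mul_assoc, ← mul_assoc, hev, mul_assoc, hsve]
    · intro i _ hi
      rw [mul_smul_comm, smul_mul_assoc, mul_assoc, mul_assoc, h2 i hi, mul_zero, mul_zero,
        smul_zero]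
    · intro h0; exact absurd (Finset.mem_univ _) h0
    · intro i _ hi
      rw [Finset.mul_sum, Finset.sum_mul]
      refine Finset.sum_eq_zero fun j' _ => ?_
      rw [mul_smul_comm, ← mul_assoc, h1 i hi, zero_mul, smul_zero, zero_mul]
    · intro h0; exact absurd (Finset.mem_univ _) h0
  obtain ⟨V, hV⟩ : ∃ V, V = ∑ k, ((l k : ℝ) : ℂ) • e k := ⟨_, rfl⟩
  have hVB : V ∈ B := by
    rw [hV]; exact sum_mem fun k _ => B.toStarSubalgebra.smul_mem (he k) _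
  have hY : ‖V ξ‖ ^ 2 = ∑ k, l k ^ 2 * ‖e k ξ‖ ^ 2 := by rw [hV, hE.norm_comb]
  rw [← hY] at hX
  have hse : ∀ k ζ, ‖star (v k) ζ‖ ≤ ‖e k ζ‖ := fun k ζ => by
    rw [← hsve k]
    exact apply_le (a := star (v k)) (by rw [norm_star]; exact hvn k) (e k ζ)
  have hZ : 0 < n * ‖g ξ‖ ^ 2 := by positivity
  have hY0 : 0 < ‖V ξ‖ ^ 2 := by
    by_contra h0
    have h1 : ∑ k, l k ^ 2 * ‖e k ξ‖ ^ 2 = 0 := by
      rw [← hY]; exact le_antisymm (not_lt.1 h0) (sq_nonneg _)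
    rw [Finset.sum_eq_zero_iff_of_nonneg fun k _ => by positivity] at h1
    have h2 : ∑ k, l k * (⟪v k ξ, S.D.Rm (v k) ξ⟫_ℂ).re = 0 := by
      refine Finset.sum_eq_zero fun k _ => ?_
      have h3 := h1 k (Finset.mem_univ k)
      have h4 : ‖e k ξ‖ = 0 := by
        have := (hl k).ne'
        simpa [this] using h3
      have h5 : S.D.Rm (v k) ξ = 0 := by
        rw [← norm_le_zero_iff, S.D.norm_Rm_xi, ← h4]
        exact hse k ξ
      rw [h5, inner_zero_right, Complex.zero_re, mul_zero]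
    rw [h2] at hX
    nlinarith [sq_nonneg ‖V ξ‖]
  refine ⟨x, hxN, by rw [hx]; exact Fr.x_sa, by rw [hx]; exact Fr.x_norm, V, hVB, hY0,
    fun r hr P a hP ha => ?_⟩
  have hPo := partOP' hP
  have hp : ∀ i, P i ∈ B := fun i => (hP.1 i).1
  obtain ⟨U, hU⟩ : ∃ U, U = (pinch P x - a) * V := ⟨_, rfl⟩
  have hUN : U ∈ N := by
    rw [hU]
    exact mul_mem (sub_mem (sum_mem fun i _ => mul_mem (mul_mem (S.mem (hp i)) hxN)
      (S.mem (hp i))) (S.mem ha)) (S.mem hVB)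
  obtain ⟨y, hy⟩ : ∃ y : Fin r → Fin (2 ^ m) → Fin (2 ^ m) → K →L[ℂ] K,
    ∀ i k j, y i k j = P i * v k * star (v j) * P i := ⟨_, fun _ _ _ => rfl⟩
  have h1 : ∀ i k j, k ≠ j → P i * e k * U * e j = ((l j * h k j : ℝ) : ℂ) • y i k j := by
    intro i k j hkj
    have e1 : P i * pinch P x = P i * x * P i := by
      unfold pinch
      rw [Finset.mul_sum, Finset.sum_eq_single i]
      · rw [← mul_assoc, ← mul_assoc, (hPo.pr i).isIdempotentElem.eq]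
      · intro i' _ hi
        rw [← mul_assoc, ← mul_assoc, hPo.orth i i' hi.symm, zero_mul, zero_mul]
      · intro h0; exact absurd (Finset.mem_univ _) h0
    have e2 : P i * e k * pinch P x * e j = P i * (e k * x * e j) * P i := by
      rw [S.comm (hp i) (he k), mul_assoc (e k), e1, mul_assoc, mul_assoc _ (P i),
        S.comm (hp i) (he j), ← mul_assoc (e k), ← mul_assoc (e k), ← S.comm (hp i) (he k)]
      simp only [mul_assoc]
    have e3 : P i * e k * a * e j = 0 := by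
      rw [mul_assoc, S.comm ha (he j), mul_assoc, ← mul_assoc (e k), heo k j hkj, zero_mul,
        mul_zero]
    rw [hU, ← mul_assoc, mul_assoc _ V, hV, hE.comb_mul, mul_smul_comm, mul_sub, sub_mul, e2, e3,
      sub_zero, hexe, mul_smul_comm, smul_mul_assoc, smul_smul, hy, Complex.ofReal_mul,
      ← mul_assoc]
  have h2 : ∑ j, ∑ k, ∑ i, ‖(P i * e k * U * e j) ξ‖ ^ 2 ≤ ‖U ξ‖ ^ 2 := by
    refine le_trans (Finset.sum_le_sum fun j _ => ?_) ((hE.rm S.D).bessel (U ξ))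
    rw [← S.mx hUN (he j)]
    exact le_trans (Finset.sum_le_sum fun k _ => hPo.bessel (e k (U (e j ξ))))
      (hE.bessel (U (e j ξ)))
  have h3 : ∀ i k j, l j ^ 2 * ‖y i k j ξ‖ ^ 2 ≤ n * ‖(P i * e k * U * e j) ξ‖ ^ 2 +
      if k = j then l j ^ 2 * ‖P i (e j ξ)‖ ^ 2 else 0 := by
    intro i k j
    by_cases hkj : k = j
    · rw [if_pos hkj, hkj]
      have h4 : ‖y i j j ξ‖ ≤ ‖P i (e j ξ)‖ := by
        rw [hy, ← ContinuousLinearMap.mul_apply (P i) (e j), S.comm (hp i) (he j)]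
        exact ((norm_proj_le (hPo.pr i) _).trans (apply_le (hvn j) _)).trans (hse j _)
      have h5 := mul_le_mul_of_nonneg_left (pow_le_pow_left₀ (norm_nonneg _) h4 2) (sq_nonneg (l j))
      have h6 : 0 ≤ n * ‖(P i * e j * U * e j) ξ‖ ^ 2 := by positivity
      linarith
    · rw [if_neg hkj, h1 i k j hkj, ContinuousLinearMap.smul_apply, norm_smul, Complex.norm_real,
        mul_pow, Real.norm_eq_abs, sq_abs, mul_pow, hh2, add_zero]
      refine le_of_eq ?_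
      field_simp
  obtain ⟨ω, hω⟩ : ∃ ω : Fin r → Fin (2 ^ m) → K,
    ∀ i k, ω i k = ((l k : ℝ) : ℂ) • star (v k) (S.D.Rm (v k) (P i ξ)) := ⟨_, fun _ _ => rfl⟩
  have h4 : ∀ i, ‖∑ k, ω i k‖ ^ 2 ≤ ∑ j, ∑ k, l j ^ 2 * ‖y i k j ξ‖ ^ 2 := by
    intro i
    have e1 : ∀ j k, (⟪ω i j, ω i k⟫_ℂ).re ≤
        (l j ^ 2 * ‖y i k j ξ‖ ^ 2 + l k ^ 2 * ‖y i j k ξ‖ ^ 2) / 2 := by
      intro j k
      have e2 : star (y i k j) = y i j k := by
        rw [hy, hy, star_mul, star_mul, star_mul, star_star, (hPo.pr i).isSelfAdjoint.star_eq]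
        simp only [mul_assoc]
      have e3 := re_le (y i k j ξ) (S.D.Rm (y i k j) ξ)
      rw [S.D.norm_Rm_xi, e2] at e3
      rw [hω, hω, inner_smul_left, inner_smul_right, Complex.conj_ofReal, Complex.re_ofReal_mul,
        Complex.re_ofReal_mul, ← S.s_pair (hv k) (hv j) (hp i) (hPo.pr i), ← hy]
      have e4 := mul_le_mul_of_nonneg_left e3 (mul_pos (hl j) (hl k)).le
      nlinarith [sq_nonneg (l j * ‖y i k j ξ‖ - l k * ‖y i j k ξ‖)]
    rw [← re_self, sum_inner, Complex.re_sum]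
    simp only [inner_sum, Complex.re_sum]
    refine (Finset.sum_le_sum fun j _ => Finset.sum_le_sum fun k _ => e1 j k).trans (le_of_eq ?_)
    simp only [← Finset.sum_div, Finset.sum_add_distrib]
    rw [Finset.sum_comm (f := fun j k => l k ^ 2 * ‖y i j k ξ‖ ^ 2)]
    ring
  have h5 : ∑ i, ‖∑ k, ω i k‖ ^ 2 ≤ n * ‖U ξ‖ ^ 2 + ‖V ξ‖ ^ 2 := by
    refine (Finset.sum_le_sum fun i _ => (h4 i).trans (Finset.sum_le_sum fun j _ =>
      Finset.sum_le_sum fun k _ => h3 i k j)).trans ?_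
    simp only [Finset.sum_add_distrib, Finset.sum_ite_eq', Finset.mem_univ, if_true,
      ← Finset.mul_sum]
    refine add_le_add (mul_le_mul_of_nonneg_left (le_trans (le_of_eq ?_) h2) hn0.le) ?_
    · rw [Finset.sum_comm]
      exact Finset.sum_congr rfl fun j _ => Finset.sum_comm
    · rw [Finset.sum_comm, hY]
      refine Finset.sum_le_sum fun j _ => ?_
      rw [← Finset.mul_sum]
      exact mul_le_mul_of_nonneg_left (hPo.bessel _) (sq_nonneg _)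
  have h6 : ‖∑ i, ∑ k, ω i k‖ ^ 2 ≤ r * ∑ i, ‖∑ k, ω i k‖ ^ 2 := by
    refine (pow_le_pow_left₀ (norm_nonneg _) (norm_sum_le _ _) 2).trans ?_
    have := sq_sum_le_card_mul_sum_sq (s := Finset.univ) (f := fun i => ‖∑ k, ω i k‖)
    rwa [Finset.card_univ, Fintype.card_fin] at this
  have h7 : ∑ k, l k * (⟪v k ξ, S.D.Rm (v k) ξ⟫_ℂ).re = (⟪g ξ, ∑ i, ∑ k, ω i k⟫_ℂ).re := by
    rw [Finset.sum_comm, inner_sum, Complex.re_sum]
    refine Finset.sum_congr rfl fun k _ => ?_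
    simp only [hω]
    rw [← Finset.smul_sum, ← map_sum, ← map_sum, ← ContinuousLinearMap.sum_apply, hP.2.2,
      inner_smul_right, Complex.re_ofReal_mul, adj_r, ← ContinuousLinearMap.mul_apply (v k), hvg]
    rfl
  have h8 := re_le (g ξ) (∑ i, ∑ k, ω i k)
  rw [← h7] at h8
  have hr0 : (0 : ℝ) < r := by exact_mod_cast hr
  have h9 : (1 / 200 * (n * ‖g ξ‖ ^ 2) + 1 / 80 * ‖V ξ‖ ^ 2) ^ 2 ≤
      ‖g ξ‖ ^ 2 * (r * (n * ‖U ξ‖ ^ 2 + ‖V ξ‖ ^ 2)) := by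
    refine (pow_le_pow_left₀ (by positivity) (hX.trans h8) 2).trans ?_
    rw [mul_pow]
    exact mul_le_mul_of_nonneg_left (h6.trans (mul_le_mul_of_nonneg_left h5 hr0.le))
      (sq_nonneg _)
  have h10 : ‖g ξ‖ ^ 2 * (n * ‖V ξ‖ ^ 2 / 4000) ≤
      ‖g ξ‖ ^ 2 * (r * (n * ‖U ξ‖ ^ 2 + ‖V ξ‖ ^ 2)) := by
    refine le_trans ?_ h9
    nlinarith [sq_nonneg (1 / 200 * (n * ‖g ξ‖ ^ 2) - 1 / 80 * ‖V ξ‖ ^ 2)]
  have h11 := le_of_mul_le_mul_left h10 hg0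
  rw [← hU]
  have e : (1 / (4000 * r) - 1 / n) * ‖V ξ‖ ^ 2 =
      (n * ‖V ξ‖ ^ 2 / 4000 - r * ‖V ξ‖ ^ 2) / (r * n) := by field_simp
  rw [e, div_le_iff₀ (by positivity)]
  nlinarith

include S in
theorem low {m r : ℕ} (hr : 0 < r) (h : Inp N B 1 (2 ^ m)) :
    Low N B (fun y => ‖y ξ‖ ^ 2) (1 / (4000 * r) - 1 / 2 ^ m) r := by
  obtain ⟨x, hx, hxs, hxn, v, hv, hv0, h1⟩ := S.frame h
  exact ⟨x, hx, hxs, hxn, v, hv, hv0, h1 r hr, fun η hη => S.small hx hv hr hη⟩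

end Std

end Vale.Agent.N078T
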