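import Vale.Agent.N078.T3D

/-! P078, growth for every inclusion: from the standard form of a corner back to the inclusion. -/

set_option linter.all false

open Filter Topology
open scoped ComplexConjugate InnerProductSpace

namespace Vale.Agent.N078T

open Vale.Agent.P132 (ModData)
open Vale.Agent.P078.C (IsPart pinch)
open Vale.Agent.P078 (CentralNormal PosOn WCont SumAbelian AbProj)
open Vale.Agent.P078.WG (IsGns Iso up dn cAlg corner)

universe u

variable {H : Type u} [NormedAddCommGroup H] [InnerProductSpace ℂ H] [CompleteSpace H]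
variable {M A : VonNeumannAlgebra H} {ψ : (H →L[ℂ] H) →ₗ[ℂ] ℂ}

/-- the square of the seminorm of a functional -/
noncomputable def nq (ψ : (H →L[ℂ] H) →ₗ[ℂ] ℂ) (y : H →L[ℂ] H) : ℝ := (ψ (star y * y)).re

theorem pinch_mem' (hA : P078.SO.IsMASA A M) {r : ℕ} {P : Fin r → H →L[ℂ] H} (hP : IsPart A P)
    {x : H →L[ℂ] H} (hx : x ∈ M) : pinch P x ∈ M :=
  sum_mem fun i _ => mul_mem (mul_mem (hA.1 _ (hP.1 i).1) hx) (hA.1 _ (hP.1 i).1)

theorem low_gns (hA : P078.SO.IsMASA A M) (hψ : CentralNormal M A.toStarSubalgebra ψ)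
    (h1 : ψ 1 = 1) (hf : ∀ x ∈ M, ψ (star x * x) = 0 → x = 0) {m r : ℕ} (hr : 0 < r)
    (h : Inp M A 1 (2 ^ m)) : Low M A (nq ψ) (1 / (4000 * r) - 1 / 2 ^ m) r := by
  have hpos : PosOn M ψ := hψ.nonneg
  obtain ⟨L, _, _, _, Λ, π, hG⟩ := P078.WG.exists_gns hpos
  obtain ⟨M', hM'⟩ := hG.exists_image hpos hψ.wcont hf (N := M) fun _ h => h
  obtain ⟨A', hA'⟩ := hG.exists_image hpos hψ.wcont hf (N := A) hA.1
  have hMA' := hG.isMASA hpos hf hA hM' hA'
  have hcs := hG.isCState hA hψ h1 hf hM' hA'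
  have hinj := fun {x y : H →L[ℂ] H} (hx : x ∈ M) (hy : y ∈ M) (h : π x = π y) =>
    hG.inj hpos hf hx hy h
  have hπM : ∀ x ∈ M, π x ∈ M' := fun x hx => (hM' _).2 ⟨x, hx, rfl⟩
  have hπA : ∀ x ∈ A, π x ∈ A' := fun x hx => (hA' _).2 ⟨x, hx, rfl⟩
  have hΛ : ∀ x ∈ M, π x (Λ 1) = Λ x := fun x hx => by rw [hG.act x hx 1 (one_mem M), mul_one]
  have hn : ∀ y ∈ M, nq ψ y = ‖π y (Λ 1)‖ ^ 2 := fun y hy => by rw [hΛ y hy, hG.norm_sq hy]; rfl
  have hξ : ‖Λ 1‖ = 1 := by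
    have := hG.norm_sq (one_mem M)
    rw [star_one, one_mul, h1, Complex.one_re] at this
    nlinarith [norm_nonneg (Λ 1)]
  obtain ⟨D⟩ := P132.exists_modData M' (Λ 1) hξ (by
      rw [Metric.dense_iff]
      intro v δ hδ
      obtain ⟨x, hx, hv⟩ := hG.dense v δ hδ
      exact ⟨Λ x, by rw [Metric.mem_ball, dist_comm, dist_eq_norm]; exact hv,
        π x, hπM x hx, hΛ x hx⟩)
    (fun a ha h0 => hcs.faithful a ha fun n => by
      by_cases hn0 : n = 0
      · simpa [P078.WG.cyc, hn0] using h0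
      · simp [P078.WG.cyc, hn0])
  obtain ⟨E, hE⟩ := P078.W.exists_cexp hMA' hcs
  have hsa : ∀ b ∈ A', star b = b → D.InC b := fun b hb hbs =>
    D.gi_centralizer (hMA'.1 b hb) hbs fun x hx => by
      have := hcs.central b hb x hx
      rw [P078.WG.vtr_cyc, P078.WG.vtr_cyc] at this
      exact this
  let S : Std M' A' (Λ 1) :=
    { D := D
      masa := hMA'
      inC := fun b hb => by
        have e : b = (2⁻¹ : ℂ) • (b + star b) +
            (2⁻¹ * Complex.I : ℂ) • (Complex.I • (star b - b)) := by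
          rw [smul_smul, mul_assoc, Complex.I_mul_I]
          module
        rw [e]
        refine ModData.InC.add D (ModData.InC.smul D (hsa _ (add_mem hb (star_mem hb)) ?_) _)
          (ModData.InC.smul D (hsa _ (A'.toStarSubalgebra.smul_mem (sub_mem (star_mem hb) hb) _)
            ?_) _)
        · rw [star_add, star_star, add_comm]
        · rw [star_smul, star_sub, star_star, Complex.star_def, Complex.conj_I, neg_smul,
            ← smul_neg, neg_sub]
      E := E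
      Emem := hE.mem
      Epos := hE.nonneg
      Etr := fun x hx b hb => by
        have h2 := hE.tr _ (mul_mem hx (hMA'.1 b hb))
        have h3 := hE.bimod 1 (one_mem A') b hb x hx
        rw [one_mul, one_mul] at h3
        rw [h3, P078.WG.vtr_cyc, P078.WG.vtr_cyc] at h2
        exact h2
      Eweak := fun x hx ζ η => P078.W.tendsto_part_E hMA' hcs hE hx ζ η
      Estrong := fun x hx κ hκ => by
        obtain ⟨Q, hQ⟩ := P078.W.pinch_lim3 hMA' hcs hE hx (ε := κ ^ 2) (by positivity)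
        filter_upwards [P078.Part.eventually_finer Q] with Q' hQ'
        have h2 := hQ Q' hQ'
        rw [P078.WG.n2_cyc] at h2
        exact (sq_le_sq₀ (norm_nonneg _) hκ.le).1 h2 }
  have hpr : ∀ e ∈ M, IsStarProjection e ↔ IsStarProjection (π e) := by
    intro e he
    constructor
    · intro h
      refine ⟨?_, ?_⟩
      · change π e * π e = π e
        rw [← hG.map_mul he he, h.isIdempotentElem.eq]
      · change star (π e) = π e
        rw [← hG.map_star he, h.isSelfAdjoint.star_eq]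
    · intro h
      refine ⟨hinj (mul_mem he he) he ?_, hinj (star_mem he) he ?_⟩
      · rw [hG.map_mul he he, h.isIdempotentElem.eq]
      · rw [hG.map_star he, h.isSelfAdjoint.star_eq]
  have hInp : Inp M' A' 1 (2 ^ m) := by
    obtain ⟨q, f, hq, hqo, hfA, hfp, hf0, -, hvis⟩ := h
    have hqM := fun k => hA.1 _ (hq k).1
    have hfM := hA.1 _ hfA
    refine ⟨fun k => π (q k), π f, fun k => ⟨hπA _ (hq k).1, (hpr _ (hqM k)).1 (hq k).2.1,
      one_mul _⟩, fun i j hij => ?_, hπA _ hfA, (hpr _ hfM).1 hfp,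
      fun h0 => hf0 (hinj hfM (zero_mem M) (by rw [h0, hG.map_zero])), one_mul _,
      fun g' hg' hgp hg0 hfg k => ?_⟩
    · rw [← hG.map_mul (hqM i) (hqM j), hqo i j hij, hG.map_zero]
    · obtain ⟨g, hg, rfl⟩ := (hA' _).1 hg'
      have hgM := hA.1 _ hg
      obtain ⟨x, hx, hne⟩ := hvis g hg ((hpr _ hgM).2 hgp)
        (fun h0 => hg0 (by rw [h0, hG.map_zero]))
        (hinj (mul_mem hfM hgM) hgM (by rw [hG.map_mul hfM hgM, hfg])) k
      refine ⟨π x, hπM x hx, fun h0 => hne (hinj (mul_mem (mul_mem hgM hx) (hqM k)) (zero_mem M) ?_)⟩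
      rw [hG.map_mul (mul_mem hgM hx) (hqM k), hG.map_mul hgM hx, h0, hG.map_zero]
  obtain ⟨x', hx', hxs, hxn, v', hv', hv0, hlow, hsmall⟩ := S.low hr hInp
  obtain ⟨x, hx, rfl⟩ := (hM' _).1 hx'
  obtain ⟨v, hv, rfl⟩ := (hA' _).1 hv'
  have hvM := hA.1 _ hv
  have hP : ∀ P : Fin r → H →L[ℂ] H, IsPart A P → IsPart A' fun i => π (P i) := by
    intro P hP
    have hPM := fun i => hA.1 _ (hP.1 i).1
    refine ⟨fun i => ⟨hπA _ (hP.1 i).1, (hpr _ (hPM i)).1 (hP.1 i).2⟩, fun i j hij => ?_, ?_⟩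
    · rw [← hG.map_mul (hPM i) (hPM j), hP.2.1 i j hij, hG.map_zero]
    · rw [← hG.map_sum _ hPM, hP.2.2, hG.map_one]
  have hU : ∀ (P : Fin r → H →L[ℂ] H) (a : H →L[ℂ] H), IsPart A P → a ∈ A →
      (pinch P x - a) * v ∈ M ∧
        π ((pinch P x - a) * v) = (pinch (fun i => π (P i)) (π x) - π a) * π v := by
    intro P a hP ha
    have hPM := fun i => hA.1 _ (hP.1 i).1
    have h2 := pinch_mem' hA hP hx
    have h3 := sub_mem h2 (hA.1 a ha)
    refine ⟨mul_mem h3 hvM, ?_⟩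
    rw [hG.map_mul h3 hvM, hG.map_sub h2 (hA.1 a ha)]
    unfold pinch
    rw [hG.map_sum _ fun i => mul_mem (mul_mem (hPM i) hx) (hPM i)]
    congr 2
    refine Finset.sum_congr rfl fun i _ => ?_
    rw [hG.map_mul (mul_mem (hPM i) hx) (hPM i), hG.map_mul (hPM i) hx]
  refine ⟨x, hx, hinj (star_mem hx) hx (by rw [hG.map_star hx, hxs.star_eq]),
    by rw [← hG.norm_eq hpos hf hx]; exact hxn, v, hv, by rw [hn v hvM]; exact hv0,
    fun P a hPa ha => ?_, fun η hη => ?_⟩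
  · rw [hn v hvM, hn _ (hU P a hPa ha).1, (hU P a hPa ha).2]
    exact hlow _ _ (hP P hPa) (hπA a ha)
  · obtain ⟨κ, hκ, hs⟩ := hsmall η hη
    refine ⟨κ, hκ, fun s hsM hs1 hsκ => ?_⟩
    rw [hn s hsM] at hsκ
    obtain ⟨h2, h3⟩ := hs (π s) (hπM s hsM) ((hG.norm_le hpos hsM).trans hs1) hsκ
    refine ⟨by rw [hn _ (mul_mem hsM hvM), hG.map_mul hsM hvM]; exact h2,
      fun P a hPa ha ha1 => ?_⟩
    rw [hn _ (mul_mem hsM (hU P a hPa ha).1), hG.map_mul hsM (hU P a hPa ha).1, (hU P a hPa ha).2]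
    exact h3 _ _ (hP P hPa) (hπA a ha) ((hG.norm_le hpos (hA.1 a ha)).trans ha1)

theorem low_corner (hA : P078.SO.IsMASA A M) (hψ : CentralNormal M A.toStarSubalgebra ψ)
    {p : H →L[ℂ] H} (hpA : p ∈ A) (hpp : IsStarProjection p) (h1 : ψ p = 1)
    (hf : ∀ x ∈ M, p * x * p = x → ψ (star x * x) = 0 → x = 0) {m r : ℕ} (hr : 0 < r)
    (h : Inp M A p (2 ^ m)) : Low M A (nq ψ) (1 / (4000 * r) - 1 / 2 ^ m) r := by
  have hpM := hA.1 p hpA
  have hp2 : p * p = p := hpp.isIdempotentElem.eq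
  obtain ⟨K, _, _, _, i, hi⟩ := P078.WG.exists_iso hpp
  have hup1 : ∀ y : K →L[ℂ] K, p * up i y = up i y := by
    intro y
    conv_lhs => rw [← hi.up_one]
    rw [← hi.up_mul, one_mul]
  have hup2 : ∀ y : K →L[ℂ] K, up i y * p = up i y := by
    intro y
    conv_lhs => rw [← hi.up_one]
    rw [← hi.up_mul, mul_one]
  have hzero : up i (0 : K →L[ℂ] K) = 0 := by
    ext v
    exact map_zero i
  have hmM := fun {y : K →L[ℂ] K} => P078.WG.mem_cAlg (M := M) (x := y) hi hpM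
  have hmA := fun {y : K →L[ℂ] K} => P078.WG.mem_cAlg (M := A) (x := y) hi hpA
  have hud : ∀ a ∈ A, up i (dn i a) = p * a := fun a ha => by
    rw [hi.up_dn, mul_assoc, hA.2.1 a ha p hpA, ← mul_assoc, hp2]
  have hud' : ∀ a ∈ A, up i (dn i a) = a * p := fun a ha => by
    rw [hud a ha, hA.2.1 a ha p hpA]
  have hn : ∀ y, nq (corner ψ i) y = nq ψ (up i y) := fun y => by
    unfold nq
    rw [P078.WG.corner_apply, hi.up_mul, Iso.up_star]
  have hpr : ∀ y : K →L[ℂ] K, IsStarProjection (up i y) ↔ IsStarProjection y := by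
    intro y
    constructor
    · intro h
      refine ⟨hi.up_injective ?_, hi.up_injective ?_⟩
      · rw [hi.up_mul, h.isIdempotentElem.eq]
      · rw [Iso.up_star, h.isSelfAdjoint.star_eq]
    · intro h
      refine ⟨?_, ?_⟩
      · change up i y * up i y = up i y
        rw [← hi.up_mul, h.isIdempotentElem.eq]
      · change star (up i y) = up i y
        rw [← Iso.up_star, h.isSelfAdjoint.star_eq]
  have hInp : Inp (cAlg M i) (cAlg A i) 1 (2 ^ m) := by
    obtain ⟨q, f, hq, hqo, hfA, hfp, hf0, hpf, hvis⟩ := h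
    have hq' : ∀ k, up i (dn i (q k)) = q k := fun k => by rw [hud _ (hq k).1, (hq k).2.2]
    have hf' : up i (dn i f) = f := by rw [hud _ hfA, hpf]
    refine ⟨fun k => dn i (q k), dn i f, fun k => ⟨P078.WG.dn_mem hi hpA (hq k).1,
      (hpr _).1 (by rw [hq']; exact (hq k).2.1), one_mul _⟩, fun j k hjk => hi.up_injective ?_,
      P078.WG.dn_mem hi hpA hfA, (hpr _).1 (by rw [hf']; exact hfp),
      fun h0 => hf0 (by rw [← hf', h0, hzero]), one_mul _, fun g hg hgp hg0 hfg k => ?_⟩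
    · rw [hi.up_mul, hq', hq', hqo j k hjk, hzero]
    · obtain ⟨x, hx, hne⟩ := hvis (up i g) (hmA.1 hg) ((hpr _).2 hgp)
        (fun h0 => hg0 (hi.up_injective (by rw [h0, hzero])))
        (by rw [← hf', ← hi.up_mul, hfg]) k
      refine ⟨dn i x, P078.WG.dn_mem hi hpM hx, fun h0 => hne ?_⟩
      have h2 := congrArg (up i) h0
      rw [hi.up_mul, hi.up_mul, hq', hi.up_dn, hzero, ← mul_assoc, ← mul_assoc, hup2,
        mul_assoc _ p, (hq k).2.2] at h2
      exact h2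
  obtain ⟨x, hx, hxs, hxn, v, hv, hv0, hlow, hsmall⟩ := low_gns (P078.WG.isMASA_cAlg hA hi hpA)
    (P078.WG.corner_central hA hψ hi hpA) (by rw [P078.WG.corner_apply, hi.up_one, h1])
    (fun y hy h0 => by
      rw [P078.WG.corner_apply, hi.up_mul, Iso.up_star] at h0
      exact hi.up_injective (by
        rw [hzero]
        exact hf _ (hmM.1 hy) (by rw [hup1, hup2]) h0)) hr hInp
  have hP : ∀ P : Fin r → H →L[ℂ] H, IsPart A P → IsPart (cAlg A i) fun j => dn i (P j) := by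
    intro P hP
    have hPA := fun j => (hP.1 j).1
    refine ⟨fun j => ⟨P078.WG.dn_mem hi hpA (hPA j), (hpr _).1 ?_⟩,
      fun j k hjk => hi.up_injective ?_, hi.up_injective ?_⟩
    · rw [hud _ (hPA j)]
      exact hpp.mul (hP.1 j).2 (hA.2.1 p hpA _ (hPA j))
    · rw [hi.up_mul, hud _ (hPA j), hud' _ (hPA k), mul_assoc, ← mul_assoc (P j), hP.2.1 j k hjk,
        zero_mul, mul_zero, hzero]
    · rw [Iso.up_sum, hi.up_one, Finset.sum_congr rfl fun j _ => hud _ (hPA j), ← Finset.mul_sum,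
        hP.2.2, mul_one]
  have hU : ∀ (P : Fin r → H →L[ℂ] H) (a : H →L[ℂ] H), IsPart A P → a ∈ A →
      up i ((pinch (fun j => dn i (P j)) x - dn i a) * v) = (pinch P (up i x) - a) * up i v := by
    intro P a hP ha
    rw [hi.up_mul, Iso.up_sub, sub_mul, sub_mul, hud' a ha, mul_assoc, hup1]
    congr 2
    unfold pinch
    rw [Iso.up_sum]
    refine Finset.sum_congr rfl fun j _ => ?_
    rw [hi.up_mul, hi.up_mul]
    conv_lhs => rw [hud' _ (hP.1 j).1]
    rw [mul_assoc (P j) p, hup1, mul_assoc, ← hA.2.1 p hpA _ (hP.1 j).1, ← mul_assoc (up i x),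
      hup2, mul_assoc]
  refine ⟨up i x, hmM.1 hx, by rw [IsSelfAdjoint, ← Iso.up_star, hxs.star_eq],
    (hi.norm_up_le x).trans hxn, up i v, hmA.1 hv, by rw [← hn]; exact hv0,
    fun P a hPa ha => ?_, fun η hη => ?_⟩
  · rw [← hU P a hPa ha, ← hn, ← hn]
    exact hlow _ _ (hP P hPa) (P078.WG.dn_mem hi hpA ha)
  · obtain ⟨κ, hκ, hs⟩ := hsmall η hη
    refine ⟨κ, hκ, fun s hsM hs1 hsκ => ?_⟩
    have hss : star s * s ∈ M := mul_mem (star_mem hsM) hsM
    have hd0 : 0 ≤ dn i (star s * s) := by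
      refine P078.nonneg_of_inner ?_ fun ζ => ?_
      · rw [IsSelfAdjoint, ← Iso.dn_star, (IsSelfAdjoint.star_mul_self s).star_eq]
      · change 0 ≤ (inner ℂ ζ (ContinuousLinearMap.adjoint i ((star s * s) (i ζ)))).re
        rw [ContinuousLinearMap.adjoint_inner_right]
        exact re_nonneg (star_mul_self_nonneg s) _
    obtain ⟨t, ht⟩ : ∃ t, t = CFC.sqrt (dn i (star s * s)) := ⟨_, rfl⟩
    have htM : t ∈ cAlg M i := by
      rw [ht]; exact P078.F.sqrt_mem _ (P078.WG.dn_mem hi hpM hss)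
    have htt : star t * t = dn i (star s * s) := by
      rw [ht, (IsSelfAdjoint.of_nonneg (CFC.sqrt_nonneg _)).star_eq, CFC.sqrt_mul_sqrt_self _ hd0]
    have ht1 : ‖t‖ ≤ 1 := by
      have h2 := hi.norm_dn_le (star s * s)
      rw [← htt, CStarRing.norm_star_mul_self, CStarRing.norm_star_mul_self] at h2
      nlinarith [norm_nonneg s, norm_nonneg t]
    have hty : ∀ y, nq (corner ψ i) (t * y) = nq ψ (s * up i y) := fun y => by
      unfold nq
      rw [star_mul, mul_assoc, ← mul_assoc (star t), htt, P078.WG.corner_apply, hi.up_mul,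
        hi.up_mul, hi.up_dn, Iso.up_star, star_mul, mul_assoc _ p, hup1, ← mul_assoc,
        ← mul_assoc, ← Iso.up_star, hup2]
      simp only [mul_assoc]
    obtain ⟨h2, h3⟩ := hs t htM ht1 (by
      refine le_trans ?_ hsκ
      unfold nq
      rw [htt, P078.WG.corner_apply, hi.up_dn]
      exact P078.CentralNormal.compress_le hA hψ hss (star_mul_self_nonneg s) hpA hpp)
    refine ⟨by rw [← hty]; exact h2, fun P a hPa ha ha1 => ?_⟩
    rw [← hU P a hPa ha, ← hty]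
    exact h3 _ _ (hP P hPa) (P078.WG.dn_mem hi hpA ha) ((hi.norm_dn_le a).trans ha1)

theorem low_pav (hA : P078.SO.IsMASA A M) (hψ : CentralNormal M A.toStarSubalgebra ψ) {γ ε : ℝ}
    (hε : 0 ≤ ε) {r : ℕ} (h : Low M A (nq ψ) γ r)
    (hpave : ∀ x ∈ M, IsSelfAdjoint x → P078.SOPavable M A.toStarSubalgebra 1 x ε r) :
    γ ≤ ε ^ 2 := by
  obtain ⟨x, hx, hxs, hxn, v, hv, hv0, hlow, hsmall⟩ := h
  have hpos : PosOn M ψ := hψ.nonneg
  obtain ⟨L, _, _, _, Λ, π, hG⟩ := P078.WG.exists_gns hpos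
  have hvM := hA.1 v hv
  have hn : ∀ y ∈ M, nq ψ y = ‖Λ y‖ ^ 2 := fun y hy => (hG.norm_sq hy).symm
  by_contra hcon
  push Not at hcon
  have hγ : 0 < γ := lt_of_le_of_lt (sq_nonneg _) hcon
  obtain ⟨g, hg⟩ : ∃ g, g = Real.sqrt γ := ⟨_, rfl⟩
  have hg2 : g ^ 2 = γ := by rw [hg, Real.sq_sqrt hγ.le]
  have hg0 : 0 < g := by rw [hg]; positivity
  have hgε : ε < g := by
    by_contra h0
    push Not at h0
    nlinarith
  rw [hn v hvM] at hv0 hlow
  have hb : 0 < ‖Λ v‖ := by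
    rcases (norm_nonneg (Λ v)).eq_or_lt with h0 | h0
    · rw [← h0] at hv0; norm_num at hv0
    · exact h0
  obtain ⟨ρ, hρ⟩ : ∃ ρ, ρ = (g - ε) * ‖Λ v‖ / 4 := ⟨_, rfl⟩
  have hρ0 : 0 < ρ := by rw [hρ]; have := sub_pos.2 hgε; positivity
  obtain ⟨κ, hκ, hs⟩ := hsmall (ρ ^ 2) (by positivity)
  obtain ⟨d, ⟨q, hqM, hq, hd, P, a, hP, haA, ha1, hqS⟩, hdκ⟩ :=
    P078.L.small_of_strong hψ.wcont (D := {d | ∃ q ∈ M, IsStarProjection q ∧ d = 1 - q ∧
      ∃ (P : Fin r → (H →L[ℂ] H)) (a : H →L[ℂ] H), IsPart A P ∧ a ∈ A ∧ ‖a‖ ≤ 1 ∧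
        ‖q * (pinch P x - a) * q‖ ≤ ε}) (C := 1) (by
          rintro d ⟨q, hqM, hq, rfl, -⟩
          exact ⟨sub_mem (one_mem M) hqM, hq.one_sub.norm_le⟩) (by
          intro G δ hδ
          obtain ⟨p, a, q, hp, hpo, hps, haA, -, has, han, hqM, -, hqp, hqF, hqS⟩ :=
            hpave x hx hxs G (fun ζ _ => rfl) δ hδ
          refine ⟨1 - q, ⟨q, hqM, hqp, rfl, p, a, ⟨hp, hpo, hps⟩, haA, han.trans hxn,
            hqS.trans (by nlinarith)⟩, fun ζ hζ => hqF ζ hζ⟩) hκ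
  have hdM : d ∈ M := by rw [hd]; exact sub_mem (one_mem M) hqM
  have hdp : IsStarProjection d := by rw [hd]; exact hq.one_sub
  obtain ⟨h1, h2⟩ := hs d hdM hdp.norm_le hdκ.le
  have h3 := h2 P a hP haA ha1
  have h4 := hlow P a hP haA
  obtain ⟨T, hT⟩ : ∃ T, T = pinch P x - a := ⟨_, rfl⟩
  rw [← hT] at h3 h4 hqS
  have hTM : T ∈ M := by rw [hT]; exact sub_mem (pinch_mem' hA hP hx) (hA.1 a haA)
  have hTn : ‖q * T‖ ≤ 2 := by
    have h5 := P078.W.norm_pinch_le3 hP x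
    have h6 : ‖T‖ ≤ 2 := by
      rw [hT]
      linarith [norm_sub_le (pinch P x) a]
    have h7 := norm_mul_le q T
    nlinarith [hq.norm_le, norm_nonneg q, norm_nonneg T]
  have huM : T * v ∈ M := mul_mem hTM hvM
  rw [hn _ (mul_mem hdM hvM)] at h1
  rw [hn _ (mul_mem hdM huM)] at h3
  rw [hn _ huM] at h4
  have h5 := (sq_le_sq₀ (norm_nonneg _) hρ0.le).1 h1
  have h6 := (sq_le_sq₀ (norm_nonneg _) hρ0.le).1 h3
  have h7 : g * ‖Λ v‖ ≤ ‖Λ (T * v)‖ := by
    rw [← sq_le_sq₀ (by positivity) (norm_nonneg _), mul_pow, hg2]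
    exact h4
  have hqT := mul_mem hqM hTM
  have e : Λ (T * v) = π (q * T * q) (Λ v) + Λ (d * (T * v)) + π (q * T) (Λ (d * v)) := by
    have e1 : T = q * T * q + d * T + q * T * d := by rw [hd]; noncomm_ring
    rw [← hG.act _ hTM _ hvM, ← mul_assoc, ← hG.act _ (mul_mem hdM hTM) _ hvM,
      ← hG.act _ hdM _ hvM, ← ContinuousLinearMap.mul_apply, ← hG.map_mul hqT hdM,
      ← ContinuousLinearMap.add_apply, ← ContinuousLinearMap.add_apply,
      ← hG.map_add (mul_mem hqT hqM) (mul_mem hdM hTM),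
      ← hG.map_add (add_mem (mul_mem hqT hqM) (mul_mem hdM hTM)) (mul_mem hqT hdM), ← e1]
  have h8 : ‖π (q * T * q) (Λ v)‖ ≤ ε * ‖Λ v‖ :=
    ((π _).le_opNorm _).trans (mul_le_mul_of_nonneg_right
      ((hG.norm_le hpos (mul_mem hqT hqM)).trans hqS) (norm_nonneg _))
  have h9 : ‖π (q * T) (Λ (d * v))‖ ≤ 2 * ρ :=
    ((π _).le_opNorm _).trans (mul_le_mul ((hG.norm_le hpos hqT).trans hTn) h5 (norm_nonneg _)
      zero_le_two)
  have h10 : ‖Λ (T * v)‖ ≤ ε * ‖Λ v‖ + ρ + 2 * ρ := by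
    rw [e]
    exact norm_add₃_le.trans (add_le_add (add_le_add h8 h6) h9)
  nlinarith

end Vale.Agent.N078T
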