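import Vale.Agent.N078.T3E

/-! P078: the quadratic lower bound over every expected part which is not a finite sum of
abelian projections. -/

set_option linter.all false

open Filter Topology
open scoped ComplexConjugate InnerProductSpace

namespace Vale.Agent.N078T

open Vale.Agent.P078 (CentralNormal PosOn WCont SumAbelian AbProj)

universe u

variable {H : Type u} [NormedAddCommGroup H] [InnerProductSpace ℂ H] [CompleteSpace H]
variable {M A : VonNeumannAlgebra H}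

theorem inp_of_not_sum (hA : P078.SO.IsMASA A M) {z : H →L[ℂ] H} (hz : z ∈ A)
    (hzp : IsStarProjection z) (hinf : ∀ N, ¬ SumAbelian M A.toStarSubalgebra z N) (n : ℕ) :
    Inp M A z n := by
  classical
  by_cases hab : ∀ w ∈ A, IsStarProjection w → z * w = w → w ≠ 0 →
      ∃ g, AbProj M A g ∧ g ≠ 0 ∧ w * g = g
  · obtain ⟨e, he, ho, hb⟩ := P078.exists_family (M := M) hA hz hzp n
    obtain ⟨s, hs⟩ : ∃ s, s = ∑ i, e i := ⟨_, rfl⟩
    have hsA : s ∈ A := by rw [hs]; exact sum_mem fun i _ => (he i).1.1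
    have hsp : IsStarProjection s := by
      rw [hs]; exact P078.isStarProjection_sum (fun i => (he i).1.2.1) ho
    have hzs : z * s = s := by
      rw [hs, Finset.mul_sum]; exact Finset.sum_congr rfl fun i _ => (he i).2
    have hes : ∀ i, e i * s = e i := by
      intro i
      rw [hs, Finset.mul_sum, Finset.sum_eq_single i]
      · exact (he i).1.2.1.isIdempotentElem.eq
      · intro j _ hj
        exact ho i j hj.symm
      · intro hi
        exact absurd (Finset.mem_univ i) hi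
    have hw0 : z - s ≠ 0 := fun h0 => hinf n
      ⟨e, fun i => (he i).1, ho, by rw [← hs]; exact (sub_eq_zero.1 h0).symm⟩
    have hzw : z * (z - s) = z - s := by rw [mul_sub, hzp.isIdempotentElem.eq, hzs]
    obtain ⟨f, hf, hf0, hwf⟩ := hab (z - s) (sub_mem hz hsA) (P078.sub_proj_of_le hzp hsp hzs)
      hzw hw0
    have hzf : z * f = f := by rw [← hwf, ← mul_assoc, hzw]
    refine ⟨e, f, fun k => ⟨(he k).1.1, (he k).1.2.1, (he k).2⟩, ho, hf.1, hf.2.1, hf0, hzf,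
      fun g hg hgp hg0 hfg => hb g (hf.of_le hA hg hgp hfg) (by rw [← hfg, ← mul_assoc, hzf])
        (fun i => ?_) hg0⟩
    rw [← hfg, ← hwf, ← mul_assoc, ← mul_assoc, mul_sub, hes, hA.2.1 _ (he i).1.1 _ hz, (he i).2,
      sub_self, zero_mul, zero_mul]
  · push Not at hab
    obtain ⟨w, hw, hwp, hzw, hw0, hnab⟩ := hab
    obtain ⟨g, e, v, hgM, hgp, hg0, hwg, he, ho, hv⟩ := P078.units_diffuse hA n w hw hwp hw0
      fun g hg hgp hwg hg0 hx => hnab g ⟨hg, hgp, hx⟩ hg0 hwg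
    obtain ⟨c, hcM, hcp, hcc, hcg, hca⟩ := P078.exists_central_proj M hgM
    have hcA : c ∈ A := hA.2.2 c hcM fun a ha => (hcc a (hA.1 _ ha)).symm
    refine ⟨e, w * c, fun k => ⟨(he k).1, (he k).2.1, by rw [← (he k).2.2, ← mul_assoc, hzw]⟩, ho,
      mul_mem hw hcA, hwp.mul hcp (hA.2.1 _ hw _ hcA), fun h0 => hg0 ?_,
      by rw [← mul_assoc, hzw], fun g' hg' hgp' hg0' hfg k => ?_⟩
    · rw [← hwg, ← hcg, ← mul_assoc, h0, zero_mul]
    · by_contra hcon
      push Not at hcon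
      have h1 := hca g' fun y hy => by
        have h2 := hcon (y * star (v k)) (mul_mem hy (star_mem (hv k).1))
        rw [← (hv k).2.2, ← (hv k).2.1, star_mul, (he k).2.1.isSelfAdjoint.star_eq,
          mul_assoc (star (v k)), ← mul_assoc (e k), (he k).2.1.isIdempotentElem.eq,
          ← mul_assoc, ← mul_assoc, mul_assoc g' y, h2, zero_mul]
      apply hg0'
      rw [← h1, ← hcc g' (hA.1 _ hg'), ← hfg, hA.2.1 _ hw _ hcA, ← mul_assoc, ← mul_assoc,
        hcp.isIdempotentElem.eq]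

theorem central_add {ψ φ : (H →L[ℂ] H) →ₗ[ℂ] ℂ} (hψ : CentralNormal M A.toStarSubalgebra ψ)
    (hφ : CentralNormal M A.toStarSubalgebra φ) :
    CentralNormal M A.toStarSubalgebra (ψ + φ) ∧ ∀ t ∈ M, 0 ≤ t → (ψ + φ) t = 0 →
      ψ t = 0 ∧ φ t = 0 := by
  refine ⟨⟨fun x hx h0 => ?_, fun e he hep x hx => ?_, hψ.wcont.add hφ.wcont⟩,
    fun t ht h0 h => ?_⟩
  · obtain ⟨h1, h2⟩ := hψ.nonneg x hx h0
    obtain ⟨h3, h4⟩ := hφ.nonneg x hx h0
    rw [LinearMap.add_apply, Complex.add_re, Complex.add_im, h2, h4, add_zero]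
    exact ⟨add_nonneg h1 h3, rfl⟩
  · rw [LinearMap.add_apply, LinearMap.add_apply, hψ.central e he hep x hx,
      hφ.central e he hep x hx]
  · obtain ⟨h1, h2⟩ := hψ.nonneg t ht h0
    obtain ⟨h3, h4⟩ := hφ.nonneg t ht h0
    have h5 := congrArg Complex.re h
    rw [LinearMap.add_apply, Complex.add_re, Complex.zero_re] at h5
    exact ⟨Complex.ext (by rw [Complex.zero_re]; linarith) h2,
      Complex.ext (by rw [Complex.zero_re]; linarith) h4⟩

section expected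

variable (hA : P078.SO.IsMASA A M) {z : H →L[ℂ] H} (hz : z ∈ A) (hzp : IsStarProjection z)
  {E : (H →L[ℂ] H) →ₗ[ℂ] (H →L[ℂ] H)} (hE : P078.SO.IsNormalExpectation M A z E)

include hA hz hzp hE

theorem exists_piece {w : H →L[ℂ] H} (hw : w ∈ A) (hwp : IsStarProjection w) (hw0 : w ≠ 0)
    (hzw : z * w = w) : ∃ ψ : (H →L[ℂ] H) →ₗ[ℂ] ℂ, CentralNormal M A.toStarSubalgebra ψ ∧
      ∃ s ∈ A, IsStarProjection s ∧ s ≠ 0 ∧ w * s = s ∧
        ∀ t ∈ A, IsStarProjection t → ψ t = 0 → s * t = 0 := by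
  have hc := hA.2.1
  obtain ⟨ψ, hψ, hψw⟩ : ∃ ψ : (H →L[ℂ] H) →ₗ[ℂ] ℂ, CentralNormal M A.toStarSubalgebra ψ ∧
      ψ w ≠ 0 := by
    by_contra hcon
    push Not at hcon
    have h1 := P078.mul_eq_zero_of_isNormalExpectation (P078.SO.IsMASA.toStar hA) hw hwp hcon hz
      hzp (P078.SO.isNormalExpectation_iff.1 hE)
    rw [hc _ hw _ hz, hzw] at h1
    exact hw0 h1
  obtain ⟨p, hp, hpp, hzp', hψp, hf⟩ := P078.WG.exists_support hA hz hzp hE hψ
  have hsp : IsStarProjection (w * p) := hwp.mul hpp (hc _ hw _ hp)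
  have hsA := mul_mem hw hp
  refine ⟨ψ, hψ, w * p, hsA, hsp, fun h0 => hψw ?_,
    by rw [← mul_assoc, hwp.isIdempotentElem.eq], fun t ht htp hψt => ?_⟩
  · have h1 := P078.sub_proj_of_le hzp hpp hzp'
    refine hψ.mono (hA.1 _ hw) (hA.1 _ (sub_mem hz hp)) ?_ hψp hwp.nonneg
    refine (IsStarProjection.le_iff_mul_eq_right hwp h1).2 ?_
    rw [sub_mul, hzw, ← hc _ hw _ hp, h0, sub_zero]
  · have h1 : IsStarProjection (w * p * t) := hsp.mul htp (hc _ hsA _ ht)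
    have h2 := mul_mem hsA ht
    refine hf _ (hA.1 _ h2) ?_ ?_
    · rw [mul_assoc, hc _ h2 _ hp, ← mul_assoc, hpp.isIdempotentElem.eq, hc _ hw _ hp,
        ← mul_assoc, ← mul_assoc, hpp.isIdempotentElem.eq]
    · rw [h1.isSelfAdjoint.star_eq, h1.isIdempotentElem.eq]
      refine hψ.mono (hA.1 _ h2) (hA.1 _ ht) ?_ hψt h1.nonneg
      refine (IsStarProjection.le_iff_mul_eq_right h1 htp).2 ?_
      rw [hc _ hsA _ ht, ← mul_assoc, htp.isIdempotentElem.eq]

theorem inp_support {n : ℕ} (h : Inp M A z n) : ∃ ψ : (H →L[ℂ] H) →ₗ[ℂ] ℂ,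
    CentralNormal M A.toStarSubalgebra ψ ∧ ∃ p ∈ A, IsStarProjection p ∧ ψ p = 1 ∧
      (∀ x ∈ M, p * x * p = x → ψ (star x * x) = 0 → x = 0) ∧ Inp M A p n := by
  classical
  have hc := hA.2.1
  obtain ⟨q, f, hq, hqo, hf, hfp, hf0, hzf, hvis⟩ := h
  have key : ∀ T : Finset (Fin n), ∃ ψ : (H →L[ℂ] H) →ₗ[ℂ] ℂ,
      CentralNormal M A.toStarSubalgebra ψ ∧ ∃ f' ∈ A, IsStarProjection f' ∧ f' ≠ 0 ∧
        f * f' = f' ∧ ∀ k ∈ T, ∃ s ∈ A, IsStarProjection s ∧ q k * s = s ∧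
          (∀ t ∈ A, IsStarProjection t → ψ t = 0 → s * t = 0) ∧
          ∀ g ∈ A, IsStarProjection g → g ≠ 0 → f' * g = g → ∃ x ∈ M, g * x * s ≠ 0 := by
    intro T
    induction T using Finset.induction_on with
    | empty =>
      exact ⟨0, ⟨fun _ _ _ => ⟨le_rfl, rfl⟩, fun _ _ _ _ _ => rfl, WCont.zero⟩, f, hf, hfp, hf0,
        hfp.isIdempotentElem.eq, fun k hk => absurd hk (Finset.notMem_empty k)⟩
    | insert j T _ ih =>
      obtain ⟨ψ, hψ, f', hf', hfp', hf0', hff', hT⟩ := ih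
      obtain ⟨c, hcM, hcp, hcc, hcf, hca⟩ := P078.exists_central_proj M (hA.1 _ hf')
      have hcA : c ∈ A := hA.2.2 c hcM fun a ha => (hcc a (hA.1 _ ha)).symm
      obtain ⟨x, hx, hne⟩ := hvis f' hf' hfp' hf0' hff' j
      obtain ⟨φ, hφ, s, hs, hsp, hs0, hws, hst⟩ := exists_piece hA hz hzp hE
        (mul_mem (hq j).1 hcA) ((hq j).2.1.mul hcp (hc _ (hq j).1 _ hcA)) (fun h0 => hne (by
          rw [← hcf, mul_assoc, mul_assoc, hcc _ (mul_mem (hA.1 _ hf') (mul_mem hx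
            (hA.1 _ (hq j).1))), mul_assoc, mul_assoc, h0, mul_zero, mul_zero]))
        (by rw [← mul_assoc, (hq j).2.2])
      have hqs : q j * s = s := by
        rw [← hws, ← mul_assoc, ← mul_assoc, (hq j).2.1.isIdempotentElem.eq]
      have hsc : s * c = s := by
        rw [hc _ hs _ hcA, ← hws, hc _ (hq j).1 _ hcA, ← mul_assoc, ← mul_assoc,
          hcp.isIdempotentElem.eq]
      obtain ⟨d, hdM, hdp, hdc, hds, hda⟩ := P078.exists_central_proj M (hA.1 _ hs)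
      have hdA : d ∈ A := hA.2.2 d hdM fun a ha => (hdc a (hA.1 _ ha)).symm
      obtain ⟨h1, h2⟩ := central_add hψ hφ
      refine ⟨ψ + φ, h1, f' * d, mul_mem hf' hdA, hfp'.mul hdp (hc _ hf' _ hdA), fun h0 => hs0 ?_,
        by rw [← mul_assoc, hff'], fun k hk => ?_⟩
      · rw [← hsc]
        refine hca s fun y hy => ?_
        rw [← hds, mul_assoc, mul_assoc, hdc _ (mul_mem (hA.1 _ hs) (mul_mem hy (hA.1 _ hf'))),
          mul_assoc, mul_assoc, h0, mul_zero, mul_zero]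
      · rcases Finset.mem_insert.1 hk with h3 | h3
        · refine ⟨s, hs, hsp, by rw [h3, hqs], fun t ht htp h0 =>
            hst t ht htp (h2 t (hA.1 _ ht) htp.nonneg h0).2, fun g hg hgp hg0 hfg => ?_⟩
          by_contra hcon
          push Not at hcon
          apply hg0
          rw [← hda g hcon, hc _ hg _ hdA, ← hfg, hc _ hf' _ hdA, ← mul_assoc, ← mul_assoc,
            hdp.isIdempotentElem.eq]
        · obtain ⟨s', hs', hsp', hqs', hst', hv'⟩ := hT k h3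
          exact ⟨s', hs', hsp', hqs', fun t ht htp h0 =>
            hst' t ht htp (h2 t (hA.1 _ ht) htp.nonneg h0).1, fun g hg hgp hg0 hfg =>
            hv' g hg hgp hg0 (by
              rw [← hfg, ← mul_assoc, ← mul_assoc, hfp'.isIdempotentElem.eq])⟩
  obtain ⟨ψ, hψ, f', hf', hfp', hf0', hff', hT⟩ := key Finset.univ
  choose s hs hsp hqs hst hsv using fun k => hT k (Finset.mem_univ k)
  obtain ⟨φ, hφ, s0, hs0, hs0p, hs00, hfs0, hs0t⟩ := exists_piece hA hz hzp hE hf' hfp' hf0'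
    (by rw [← hff', ← mul_assoc, hzf])
  obtain ⟨h1, h2⟩ := central_add hψ hφ
  obtain ⟨p, hp, hpp, hzp', hψp, hfa⟩ := P078.WG.exists_support hA hz hzp hE h1
  have hzpp := P078.sub_proj_of_le hzp hpp hzp'
  have hzpA := sub_mem hz hp
  obtain ⟨h3, h4⟩ := h2 _ (hA.1 _ hzpA) hzpp.nonneg hψp
  have hle : ∀ t ∈ A, z * t = t → t * (z - p) = 0 → p * t = t := fun t ht h5 h6 => by
    rw [mul_sub, hc _ ht _ hz, h5, sub_eq_zero] at h6
    rw [hc _ hp _ ht, ← h6]
  have hps0 : p * s0 = s0 := hle _ hs0 (by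
    rw [← hfs0, ← hff', ← mul_assoc, ← mul_assoc, hzf]) (hs0t _ hzpA hzpp h4)
  obtain ⟨h5, h6⟩ := h1.nonneg p (hA.1 _ hp) hpp.nonneg
  obtain ⟨a, ha⟩ : ∃ a : ℝ, a = ((ψ + φ) p).re := ⟨_, rfl⟩
  have hpa : (ψ + φ) p = (a : ℂ) := Complex.ext (by rw [ha]; rfl) h6
  have ha0 : 0 < a := by
    refine lt_of_le_of_ne (ha ▸ h5) fun h0 => hs00 ?_
    have h7 := hfa p (hA.1 _ hp) (by rw [hpp.isIdempotentElem.eq, hpp.isIdempotentElem.eq]) (by
      rw [hpp.isSelfAdjoint.star_eq, hpp.isIdempotentElem.eq, hpa, ← h0, Complex.ofReal_zero])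
    rw [← hps0, h7, zero_mul]
  have happ : ∀ y, (((a⁻¹ : ℝ) : ℂ) • (ψ + φ)) y = ((a⁻¹ : ℝ) : ℂ) * (ψ + φ) y := fun y => rfl
  refine ⟨((a⁻¹ : ℝ) : ℂ) • (ψ + φ), ⟨fun y hy hy0 => ?_, fun e he hep y hy => ?_,
    h1.wcont.const_mul _⟩, p, hp, hpp, ?_, fun x hx hpx h0 => hfa x hx hpx ?_,
    s, s0, fun k => ⟨hs k, hsp k, hle _ (hs k) ?_ (hst k _ hzpA hzpp h3)⟩, fun i j hij => ?_,
    hs0, hs0p, hs00, hps0, fun g hg hgp hg0 hsg k => hsv k g hg hgp hg0 ?_⟩
  · obtain ⟨h7, h8⟩ := h1.nonneg y hy hy0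
    rw [happ, Complex.re_ofReal_mul, Complex.im_ofReal_mul, h8, mul_zero]
    exact ⟨by positivity, rfl⟩
  · rw [happ, happ, h1.central e he hep y hy]
  · rw [happ, hpa, ← Complex.ofReal_mul, inv_mul_cancel₀ ha0.ne', Complex.ofReal_one]
  · rw [happ, mul_eq_zero] at h0
    exact h0.resolve_left (by exact_mod_cast (inv_pos.2 ha0).ne')
  · rw [← hqs k, ← mul_assoc, (hq k).2.2]
  · rw [← hqs i, ← hqs j, hc _ (hq i).1 _ (hs i), mul_assoc, ← mul_assoc (q i), hqo i j hij,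
      zero_mul, mul_zero]
  · rw [← hsg, ← mul_assoc, hfs0]

/-- the quadratic lower bound, for all types -/
theorem quadratic_all (hinf : ∀ N, ¬ SumAbelian M A.toStarSubalgebra z N) {ε : ℝ} (hε : 0 < ε) :
    (⌈1 / (4000 * ε ^ 2)⌉₊ : ℕ∞) ≤ P078.pavingNumber M A.toStarSubalgebra 1 ε := by
  refine P078.le_pavingNumber fun r hr hpave => ?_
  have hr0 : (0 : ℝ) < r := by exact_mod_cast (show 0 < r by omega)
  have key : ∀ m : ℕ, 1 / (4000 * (r : ℝ)) - 1 / 2 ^ m ≤ ε ^ 2 := by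
    intro m
    obtain ⟨ψ, hψ, p, hp, hpp, h1, hf, hI⟩ := inp_support hA hz hzp hE
      (inp_of_not_sum hA hz hzp hinf (2 ^ m))
    exact low_pav hA hψ hε.le (low_corner hA hψ hp hpp h1 hf (by omega) hI)
      fun x hx hxs => hpave x hx hxs (by simp)
  have h3 : 1 / (4000 * (r : ℝ)) ≤ ε ^ 2 := by
    have ht : Tendsto (fun m : ℕ => 1 / (4000 * (r : ℝ)) - 1 / 2 ^ m) atTop
        (𝓝 (1 / (4000 * (r : ℝ)) - 0)) := by
      refine tendsto_const_nhds.sub ?_
      have h1 : ∀ m : ℕ, (1 : ℝ) / 2 ^ m = (1 / 2) ^ m := fun m => by rw [div_pow, one_pow]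
      simp_rw [h1]
      exact tendsto_pow_atTop_nhds_zero_of_lt_one (by norm_num) (by norm_num)
    rw [sub_zero] at ht
    exact le_of_tendsto' ht key
  rw [Nat.cast_le, Nat.ceil_le]
  rw [div_le_iff₀ (by positivity)] at h3 ⊢
  linarith

end expected

end Vale.Agent.N078T
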