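import Vale.Agent.N078.T3D
import Vale.Agent.N078T.Lower

/-! P078: the sharp quadratic lower bound over every expected part which is not a finite sum of
abelian projections. -/

set_option linter.all false

open Filter Topology
open scoped ComplexConjugate InnerProductSpace

namespace Vale.Agent.N078T

open Vale.Agent.P132 (ModData)
open Vale.Agent.P078.C (IsPart pinch)

universe u

theorem exists_std {L : Type u} [NormedAddCommGroup L] [InnerProductSpace ℂ L] [CompleteSpace L]
    {N B : VonNeumannAlgebra L} {ω : L} (D : ModData N ω) (hB : P078.SO.IsMASA B N)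
    (hc : P078.TT.Cen N B ω) : Nonempty (Std N B ω) := by
  obtain ⟨Λ, hΛ⟩ : ∃ Λ : (L →L[ℂ] L) → L, Λ 1 = ω := ⟨fun _ => ω, rfl⟩
  have hs : (fun n => ‖P078.WG.cyc Λ n‖ ^ 2) = fun n => if n = 0 then (1 : ℝ) else 0 := by
    funext n
    by_cases hn : n = 0
    · simp [P078.WG.cyc, hn, hΛ, D.norm_xi]
    · simp [P078.WG.cyc, hn]
  have hcs : P078.W.IsCState N B (P078.WG.cyc Λ) := by
    refine ⟨?_, ?_, fun a ha x hx => ?_, fun x hx h0 => ?_⟩
    · rw [hs]
      exact summable_of_ne_finset_zero (s := {0}) fun n hn => by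
        rw [Finset.mem_singleton] at hn
        simp [hn]
    · rw [hs, tsum_ite_eq]
    · rw [P078.WG.vtr_cyc, P078.WG.vtr_cyc, hΛ]
      exact hc a ha x hx
    · refine D.ext_xi hx (zero_mem N.toStarSubalgebra) ?_
      have := h0 0
      simp only [P078.WG.cyc, ↓reduceIte, hΛ] at this
      exact this
  obtain ⟨E, hE⟩ := P078.W.exists_cexp hB hcs
  exact ⟨{
    D := D
    masa := hB
    inC := fun b hb => P078.TT.inC D hB hc hb
    E := E
    Emem := hE.mem
    Epos := hE.nonneg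
    Etr := fun x hx b hb => by
      have h2 := hE.tr _ (mul_mem hx (hB.1 b hb))
      have h3 := hE.bimod 1 (one_mem B) b hb x hx
      rw [one_mul, one_mul] at h3
      rw [h3, P078.WG.vtr_cyc, P078.WG.vtr_cyc, hΛ] at h2
      exact h2
    Eweak := fun x hx ζ η => P078.W.tendsto_part_E hB hcs hE hx ζ η
    Estrong := fun x hx κ hκ => by
      obtain ⟨Q, hQ⟩ := P078.W.pinch_lim3 hB hcs hE hx (ε := κ ^ 2) (by positivity)
      filter_upwards [P078.Part.eventually_finer Q] with Q' hQ'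
      have h2 := hQ Q' hQ'
      rw [P078.WG.n2_cyc, hΛ] at h2
      exact (sq_le_sq₀ (norm_nonneg _) hκ.le).1 h2 }⟩

theorem core : P078.TT.CoreStmt.{u} (1 / 4000) := by
  intro L _ _ _ N B ω D hB hc m q hq ho f hf hfp hf0 hvis
  obtain ⟨S⟩ := exists_std D hB hc
  obtain ⟨x, hx, hxs, hxn, v, hv, hv0, h⟩ := S.frame (m := m) ⟨q, f,
    fun k => ⟨(hq k).1, (hq k).2, one_mul _⟩, ho, hf, hfp, hf0, one_mul _,
    fun g hg hgp hg0 hfg => hvis g hg hgp hfg hg0⟩
  refine ⟨x, hx, hxs, by linarith, v, hv, fun h0 => ?_, fun Q a ha => ?_⟩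
  · rw [h0, norm_zero] at hv0
    norm_num at hv0
  · rcases Nat.eq_zero_or_pos (Fintype.card Q.ι) with h0 | h0
    · rw [h0, Nat.cast_zero, div_zero, zero_sub]
      have : (0 : ℝ) < 1 / 2 ^ m := by positivity
      nlinarith [sq_nonneg ‖(Q.E x - a) (v ω)‖]
    · let σ := (Fintype.equivFin Q.ι).symm
      have h1 := h _ h0 (fun i => Q.e (σ i)) a ⟨fun i => ⟨Q.mem _, Q.proj _⟩,
        fun i j hij => Q.orth _ _ fun h => hij (σ.injective h), by
          rw [Equiv.sum_comp σ Q.e, Q.sum_eq]⟩ ha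
      have h2 : pinch (fun i => Q.e (σ i)) x = Q.E x :=
        Equiv.sum_comp σ fun i => Q.e i * x * Q.e i
      rw [h2] at h1
      rw [div_div]
      exact h1

/-- the sharp quadratic lower bound, for all types -/
theorem quadratic_sharp {H : Type u} [NormedAddCommGroup H] [InnerProductSpace ℂ H]
    [CompleteSpace H] {M A : VonNeumannAlgebra H} (hA : P078.SO.IsMASA A M) {z : H →L[ℂ] H}
    (hz : z ∈ A) (hzp : IsStarProjection z) {E : (H →L[ℂ] H) →ₗ[ℂ] (H →L[ℂ] H)}
    (hE : P078.IsNormalExpectation M A.toStarSubalgebra z E)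
    (hinf : ∀ N, ¬ P078.SumAbelian M A.toStarSubalgebra z N) {ε : ℝ} (hε : 0 < ε) :
    (⌈1 / ε ^ 2⌉₊ : ℕ∞) ≤ P078.pavingNumber M A.toStarSubalgebra 1 ε :=
  P078.TT.quadratic_of_core (by norm_num) core hA hz hzp hE hinf hε

end Vale.Agent.N078T
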