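import Vale.Agent.N078.Defs
import Mathlib.Analysis.CStarAlgebra.ContinuousFunctionalCalculus.Range
import Mathlib.Analysis.CStarAlgebra.ContinuousFunctionalCalculus.Basic
import Mathlib.Analysis.CStarAlgebra.ContinuousFunctionalCalculus.Isometric
import Mathlib.Analysis.CStarAlgebra.ContinuousLinearMap
import Mathlib.Tactic

/-!
The ideal of null sequences and its multiplier algebra.
-/

namespace Vale.Agent.N078

open scoped ComplexOrder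
open Filter Topology

section one

variable {H : Type*} [NormedAddCommGroup H] [InnerProductSpace ℂ H] [CompleteSpace H] {ξ : ℕ → H}

/-- The square of the seminorm given by the state. -/
noncomputable def sq2 (ξ : ℕ → H) (z : H →L[ℂ] H) : ℝ := ∑' k, ‖z (ξ k)‖ ^ 2

omit [CompleteSpace H] in
theorem sq2_nonneg (z : H →L[ℂ] H) : 0 ≤ sq2 ξ z := tsum_nonneg fun _ => by positivity

omit [CompleteSpace H] in
theorem summ (hξ : HasSum (fun k => ‖ξ k‖ ^ 2) 1) (z : H →L[ℂ] H) :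
    Summable fun k => ‖z (ξ k)‖ ^ 2 :=
  Summable.of_nonneg_of_le (fun _ => by positivity) (fun k => by
    rw [← mul_pow]; exact pow_le_pow_left₀ (norm_nonneg _) (z.le_opNorm _) 2)
    (hξ.summable.mul_left (‖z‖ ^ 2))

omit [CompleteSpace H] in
theorem sq2_mul_le (hξ : HasSum (fun k => ‖ξ k‖ ^ 2) 1) (y z : H →L[ℂ] H) :
    sq2 ξ (y * z) ≤ ‖y‖ ^ 2 * sq2 ξ z := by
  rw [sq2, sq2, ← tsum_mul_left]
  refine (summ hξ _).tsum_le_tsum (fun k => ?_) ((summ hξ z).mul_left _)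
  rw [← mul_pow]
  exact pow_le_pow_left₀ (norm_nonneg _) (y.le_opNorm _) 2

omit [CompleteSpace H] in
theorem sq2_le (hξ : HasSum (fun k => ‖ξ k‖ ^ 2) 1) (y : H →L[ℂ] H) : sq2 ξ y ≤ ‖y‖ ^ 2 := by
  have := sq2_mul_le hξ y 1
  rwa [mul_one, show sq2 ξ 1 = 1 from hξ.tsum_eq, mul_one] at this

omit [CompleteSpace H] in
theorem sq2_add_le (hξ : HasSum (fun k => ‖ξ k‖ ^ 2) 1) (y z : H →L[ℂ] H) :
    sq2 ξ (y + z) ≤ 2 * sq2 ξ y + 2 * sq2 ξ z := by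
  rw [sq2, sq2, sq2, ← tsum_mul_left, ← tsum_mul_left,
    ← ((summ hξ y).mul_left _).tsum_add ((summ hξ z).mul_left _)]
  refine (summ hξ _).tsum_le_tsum (fun k => ?_)
    (((summ hξ y).mul_left _).add ((summ hξ z).mul_left _))
  have h := pow_le_pow_left₀ (norm_nonneg _) (norm_add_le (y (ξ k)) (z (ξ k))) 2
  rw [add_apply]
  nlinarith [sq_nonneg (‖y (ξ k)‖ - ‖z (ξ k)‖)]

theorem inner_star_mul (u v : H →L[ℂ] H) (η : H) :
    inner ℂ η ((star u * v) η) = inner ℂ (u η) (v η) := by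
  rw [mul_apply_eq_comp, ContinuousLinearMap.star_eq_adjoint,
    ContinuousLinearMap.adjoint_inner_right]

theorem vs_hasSum (hξ : HasSum (fun k => ‖ξ k‖ ^ 2) 1) (z : H →L[ℂ] H) :
    HasSum (fun k => inner ℂ (ξ k) ((star z * z) (ξ k))) (sq2 ξ z : ℂ) := by
  simp only [inner_star_mul, inner_self_eq_norm_sq_to_K]
  have := (Complex.hasSum_ofReal.2 (summ hξ z).hasSum)
  simpa [sq2] using this

theorem vs_sq (hξ : HasSum (fun k => ‖ξ k‖ ^ 2) 1) (z : H →L[ℂ] H) :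
    vecState ξ (star z * z) = sq2 ξ z := (vs_hasSum hξ z).tsum_eq

theorem vs_sharp (hξ : HasSum (fun k => ‖ξ k‖ ^ 2) 1) (z : H →L[ℂ] H) :
    vecState ξ (star z * z + z * star z) = ((sq2 ξ z + sq2 ξ (star z) : ℝ) : ℂ) := by
  have h := (vs_hasSum hξ z).add (vs_hasSum hξ (star z))
  rw [star_star] at h
  simp only [vecState, add_apply, inner_add_right]
  rw [h.tsum_eq]
  push_cast
  rfl

theorem vs_cs (hξ : HasSum (fun k => ‖ξ k‖ ^ 2) 1) (u v : H →L[ℂ] H) {t : ℝ} (ht : 0 < t) :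
    ‖vecState ξ (star u * v)‖ ≤ t⁻¹ * sq2 ξ u + t * sq2 ξ v := by
  refine tsum_of_norm_bounded (((summ hξ u).hasSum.mul_left t⁻¹).add
    ((summ hξ v).hasSum.mul_left t)) fun k => ?_
  rw [inner_star_mul]
  refine (norm_inner_le_norm _ _).trans ?_
  have h : t⁻¹ * ‖u (ξ k)‖ ^ 2 + t * ‖v (ξ k)‖ ^ 2 - 2 * (‖u (ξ k)‖ * ‖v (ξ k)‖) =
      t⁻¹ * (‖u (ξ k)‖ - t * ‖v (ξ k)‖) ^ 2 := by field_simp; ring
  have h2 : 0 ≤ t⁻¹ * (‖u (ξ k)‖ - t * ‖v (ξ k)‖) ^ 2 := by positivity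
  have h3 : 0 ≤ ‖u (ξ k)‖ * ‖v (ξ k)‖ := by positivity
  linarith

theorem sq2_central (hξ : HasSum (fun k => ‖ξ k‖ ^ 2) 1) {y a : H →L[ℂ] H}
    (h : vecState ξ (star a * (star y * y * a)) = vecState ξ (star y * y * a * star a)) {t : ℝ}
    (ht : 0 < t) : sq2 ξ (y * a) ≤ t⁻¹ * sq2 ξ y + t * (‖y‖ * ‖a‖ * ‖a‖) ^ 2 := by
  have h1 := vs_sq hξ (y * a)
  rw [star_mul, show star a * star y * (y * a) = star a * (star y * y * a) by noncomm_ring, h,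
    show star y * y * a * star a = star y * (y * a * star a) by noncomm_ring] at h1
  have h2 := vs_cs hξ y (y * a * star a) ht
  rw [h1, Complex.norm_real, Real.norm_of_nonneg (sq2_nonneg _)] at h2
  refine h2.trans (add_le_add le_rfl (mul_le_mul_of_nonneg_left ((sq2_le hξ _).trans
    (pow_le_pow_left₀ (norm_nonneg _) ?_ 2)) ht.le))
  refine (norm_mul_le _ _).trans ?_
  rw [norm_star]
  exact mul_le_mul_of_nonneg_right (norm_mul_le _ _) (norm_nonneg _)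

theorem vn_smul (M : VonNeumannAlgebra H) (c : ℂ) {x : H →L[ℂ] H} (hx : x ∈ M) : c • x ∈ M :=
  M.toStarSubalgebra.smul_mem hx c

theorem vn_closed (M : VonNeumannAlgebra H) : IsClosed (M : Set (H →L[ℂ] H)) := by
  rw [← M.centralizer_centralizer]
  exact Set.isClosed_centralizer _

end one

variable {H : Type*} [NormedAddCommGroup H] [InnerProductSpace ℂ H] [CompleteSpace H]

/-- Sequences of operators. -/
abbrev Sq (H : Type*) [NormedAddCommGroup H] [InnerProductSpace ℂ H] := ℕ → (H →L[ℂ] H)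

variable {ω : Ultrafilter ℕ} {M : ℕ → VonNeumannAlgebra H} {ξ : ℕ → ℕ → H}

theorem bdd_nonneg {S : ℕ → Set (H →L[ℂ] H)} {x : Sq H} (h : x ∈ bddSeq S) :
    ∃ C, 0 ≤ C ∧ ∀ n, ‖x n‖ ≤ C :=
  let ⟨C, hC⟩ := h.2; ⟨C, (norm_nonneg _).trans (hC 0), hC⟩

theorem bdd_add {x y : Sq H} (hx : x ∈ bddSeq fun n => M n) (hy : y ∈ bddSeq fun n => M n) :
    x + y ∈ bddSeq fun n => (M n : Set (H →L[ℂ] H)) :=
  let ⟨C, hC⟩ := hx.2; let ⟨D, hD⟩ := hy.2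
  ⟨fun n => add_mem (hx.1 n) (hy.1 n), C + D, fun n => norm_add_le_of_le (hC n) (hD n)⟩

theorem bdd_mul {x y : Sq H} (hx : x ∈ bddSeq fun n => M n) (hy : y ∈ bddSeq fun n => M n) :
    x * y ∈ bddSeq fun n => (M n : Set (H →L[ℂ] H)) :=
  let ⟨C, hC⟩ := hx.2; let ⟨D, hD⟩ := hy.2
  ⟨fun n => mul_mem (hx.1 n) (hy.1 n), C * D, fun n => norm_mul_le_of_le (hC n) (hD n)⟩

theorem bdd_smul (c : ℂ) {x : Sq H} (hx : x ∈ bddSeq fun n => M n) :
    c • x ∈ bddSeq fun n => (M n : Set (H →L[ℂ] H)) :=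
  let ⟨C, hC⟩ := hx.2
  ⟨fun n => vn_smul _ c (hx.1 n), ‖c‖ * C, fun n =>
    (norm_smul_le c (x n)).trans (mul_le_mul_of_nonneg_left (hC n) (norm_nonneg _))⟩

theorem bdd_star {x : Sq H} (hx : x ∈ bddSeq fun n => M n) :
    star x ∈ bddSeq fun n => (M n : Set (H →L[ℂ] H)) :=
  let ⟨C, hC⟩ := hx.2
  ⟨fun n => star_mem (hx.1 n), C, fun n => (norm_star (x n)).trans_le (hC n)⟩

/-- Sequences which tend to `0` strongly. -/
def Lz (ω : Ultrafilter ℕ) (ξ : ℕ → ℕ → H) (z : Sq H) : Prop :=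
  Tendsto (fun n => sq2 (ξ n) (z n)) ω (𝓝 0)

omit [CompleteSpace H] in
theorem Lz.of_le {z : Sq H} (h : ∀ δ : ℝ, 0 < δ → ∀ᶠ n in ω, sq2 (ξ n) (z n) ≤ δ) : Lz ω ξ z :=
  tendsto_order.2 ⟨fun _ ha => .of_forall fun _ => ha.trans_le (sq2_nonneg _),
    fun a ha => (h (a / 2) (by linarith)).mono fun _ hn => by linarith⟩

omit [CompleteSpace H] in
theorem Lz.ev {z : Sq H} (h : Lz ω ξ z) {δ : ℝ} (hδ : 0 < δ) : ∀ᶠ n in ω, sq2 (ξ n) (z n) ≤ δ :=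
  (h.eventually_lt_const hδ).mono fun _ => le_of_lt

theorem mult_mul {x y : Sq H} (hx : x ∈ multSeq ω M ξ) (hy : y ∈ multSeq ω M ξ) :
    x * y ∈ multSeq ω M ξ :=
  ⟨bdd_mul hx.1 hy.1, fun z hz => by
    rw [mul_assoc, ← mul_assoc z]
    exact ⟨(hx.2 _ (hy.2 z hz).1).1, (hy.2 _ (hx.2 z hz).2).2⟩⟩

theorem mult_one : (1 : Sq H) ∈ multSeq ω M ξ :=
  ⟨⟨fun _ => one_mem _, 1, fun _ => ContinuousLinearMap.norm_id_le⟩, fun z hz => by
    rw [one_mul, mul_one]; exact ⟨hz, hz⟩⟩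

variable (hξ : ∀ n, HasSum (fun k => ‖ξ n k‖ ^ 2) 1)
include hξ

theorem mem_null {z : Sq H} : z ∈ nullSeq ω M ξ ↔
    z ∈ bddSeq (fun n => M n) ∧ Lz ω ξ z ∧ Lz ω ξ (star z) := by
  refine and_congr_right fun _ => ?_
  simp only [vs_sharp (hξ _)]
  rw [← Complex.ofReal_zero, Filter.tendsto_ofReal_iff]
  refine ⟨fun h => ⟨?_, ?_⟩, fun h => by simpa using h.1.add h.2⟩
  · exact squeeze_zero (fun _ => sq2_nonneg _) (fun _ => le_add_of_nonneg_right (sq2_nonneg _)) h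
  · exact squeeze_zero (fun _ => sq2_nonneg _) (fun _ => le_add_of_nonneg_left (sq2_nonneg _)) h

omit [CompleteSpace H] in
theorem Lz.add {y z : Sq H} (hy : Lz ω ξ y) (hz : Lz ω ξ z) : Lz ω ξ (y + z) :=
  squeeze_zero (fun _ => sq2_nonneg _) (fun n => sq2_add_le (hξ n) (y n) (z n))
    (by simpa using (hy.const_mul 2).add (hz.const_mul 2))

theorem Lz.mul {y z : Sq H} (hy : y ∈ bddSeq fun n => M n) (hz : Lz ω ξ z) : Lz ω ξ (y * z) :=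
  let ⟨C, hC⟩ := hy.2
  squeeze_zero (fun _ => sq2_nonneg _) (fun n => (sq2_mul_le (hξ n) (y n) (z n)).trans
    (mul_le_mul_of_nonneg_right (pow_le_pow_left₀ (norm_nonneg _) (hC n) 2) (sq2_nonneg _)))
    (by simpa using hz.const_mul (C ^ 2))

omit [CompleteSpace H] in
theorem Lz.approx {x : Sq H}
    (h : ∀ δ : ℝ, 0 < δ → ∃ z, Lz ω ξ z ∧ ∀ᶠ n in ω, ‖(x - z) n‖ ≤ δ) : Lz ω ξ x := by
  refine Lz.of_le fun δ hδ => ?_
  obtain ⟨z, h1, h2⟩ := h (min 1 (δ / 4)) (by positivity)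
  filter_upwards [h2, h1.ev (show 0 < δ / 4 by positivity)] with n h3 h4
  have e : x n = (x - z) n + z n := by simp
  have h5 := sq2_add_le (hξ n) ((x - z) n) (z n)
  have h6 := sq2_le (hξ n) ((x - z) n)
  have h7 := h3.trans (min_le_left _ _)
  have h8 := h3.trans (min_le_right _ _)
  rw [e]
  nlinarith [norm_nonneg ((x - z) n)]

theorem Lz.central {y a : Sq H} (hy : Lz ω ξ y) (hb : y ∈ bddSeq fun n => M n)
    (ha : a ∈ bddSeq fun n => M n) (h : ∀ n, vecState (ξ n)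
    (star (a n) * (star (y n) * y n * a n)) = vecState (ξ n) (star (y n) * y n * a n * star (a n))) :
    Lz ω ξ (y * a) := by
  refine Lz.of_le fun δ hδ => ?_
  obtain ⟨C, c0, hC⟩ := bdd_nonneg hb
  obtain ⟨D, d0, hD⟩ := bdd_nonneg ha
  obtain ⟨t, ht, h1⟩ : ∃ t : ℝ, 0 < t ∧ t * (C * D * D) ^ 2 ≤ δ / 2 :=
    ⟨δ / 2 / ((C * D * D) ^ 2 + 1), by positivity, by
      rw [div_mul_eq_mul_div, div_le_iff₀ (by positivity)]; nlinarith⟩
  filter_upwards [hy.ev (show 0 < t * (δ / 2) by positivity)] with n h2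
  have h3 := sq2_central (hξ n) (h n) ht
  have h4 : t * (‖y n‖ * ‖a n‖ * ‖a n‖) ^ 2 ≤ t * (C * D * D) ^ 2 := by
    have := hC n
    have := hD n
    gcongr
  have h5 : t⁻¹ * sq2 (ξ n) (y n) ≤ δ / 2 := by rwa [inv_mul_le_iff₀ ht]
  change sq2 (ξ n) (y n * a n) ≤ δ
  linarith

theorem null_zero : (0 : Sq H) ∈ nullSeq ω M ξ := by
  have : Lz ω ξ (0 : Sq H) := by simp [Lz, sq2]
  exact (mem_null hξ).2 ⟨⟨fun n => zero_mem _, 0, by simp⟩, this, by rwa [star_zero]⟩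

theorem null_add {y z : Sq H} (hy : y ∈ nullSeq ω M ξ) (hz : z ∈ nullSeq ω M ξ) :
    y + z ∈ nullSeq ω M ξ := by
  rw [mem_null hξ] at hy hz ⊢
  exact ⟨bdd_add hy.1 hz.1, hy.2.1.add hξ hz.2.1, star_add y z ▸ hy.2.2.add hξ hz.2.2⟩

theorem null_smul (c : ℂ) {z : Sq H} (hz : z ∈ nullSeq ω M ξ) : c • z ∈ nullSeq ω M ξ := by
  rw [mem_null hξ] at hz ⊢
  have h := fun c : ℂ => bdd_smul c (mult_one (ω := ω) (M := M) (ξ := ξ)).1
  have h1 := hz.2.1.mul hξ (h c)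
  have h2 := hz.2.2.mul hξ (h (star c))
  rw [smul_mul_assoc, one_mul] at h1 h2
  exact ⟨bdd_smul c hz.1, h1, star_smul c z ▸ h2⟩

theorem null_star {z : Sq H} (hz : z ∈ nullSeq ω M ξ) : star z ∈ nullSeq ω M ξ := by
  rw [mem_null hξ] at hz ⊢
  exact ⟨bdd_star hz.1, hz.2.2, by rw [star_star]; exact hz.2.1⟩

theorem null_sub {y z : Sq H} (hy : y ∈ nullSeq ω M ξ) (hz : z ∈ nullSeq ω M ξ) :
    y - z ∈ nullSeq ω M ξ := by
  have := null_add hξ hy (null_smul hξ (-1) hz)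
  rwa [neg_one_smul, ← sub_eq_add_neg] at this

theorem null_approx {x : Sq H} (hx : x ∈ bddSeq fun n => M n)
    (h : ∀ δ : ℝ, 0 < δ → ∃ z ∈ nullSeq ω M ξ, ∀ᶠ n in ω, ‖(x - z) n‖ ≤ δ) :
    x ∈ nullSeq ω M ξ := by
  refine (mem_null hξ).2 ⟨hx, Lz.approx hξ fun δ hδ => ?_, Lz.approx hξ fun δ hδ => ?_⟩
  · obtain ⟨z, h1, h2⟩ := h δ hδ
    exact ⟨z, ((mem_null hξ).1 h1).2.1, h2⟩
  · obtain ⟨z, h1, h2⟩ := h δ hδ
    refine ⟨star z, ((mem_null hξ).1 h1).2.2, h2.mono fun n hn => ?_⟩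
    rwa [← star_sub, Pi.star_apply, norm_star]

theorem null_mult {y : Sq H} (hy : y ∈ nullSeq ω M ξ) : y ∈ multSeq ω M ξ := by
  refine ⟨hy.1, fun z hz => ?_⟩
  rw [mem_null hξ] at hy hz
  rw [mem_null hξ, mem_null hξ, star_mul, star_mul]
  exact ⟨⟨bdd_mul hy.1 hz.1, hz.2.1.mul hξ hy.1, hy.2.2.mul hξ (bdd_star hz.1)⟩,
    bdd_mul hz.1 hy.1, hy.2.1.mul hξ hz.1, hz.2.2.mul hξ (bdd_star hy.1)⟩

theorem central_mult {a : Sq H} (ha : a ∈ bddSeq fun n => M n)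
    (h1 : ∀ n, ∀ y ∈ M n, vecState (ξ n) (a n * y) = vecState (ξ n) (y * a n))
    (h2 : ∀ n, ∀ y ∈ M n, vecState (ξ n) (star (a n) * y) = vecState (ξ n) (y * star (a n))) :
    a ∈ multSeq ω M ξ := by
  refine ⟨ha, fun z hz => ?_⟩
  rw [mem_null hξ] at hz
  rw [mem_null hξ, mem_null hξ, star_mul, star_mul]
  refine ⟨⟨bdd_mul ha hz.1, hz.2.1.mul hξ ha,
      hz.2.2.central hξ (bdd_star hz.1) (bdd_star ha) fun n => ?_⟩,
    bdd_mul hz.1 ha, hz.2.1.central hξ hz.1 ha fun n => ?_, hz.2.2.mul hξ (bdd_star ha)⟩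
  · simp only [Pi.star_apply, star_star]
    exact h1 n _ (mul_mem (mul_mem (hz.1.1 n) (star_mem (hz.1.1 n))) (star_mem (ha.1 n)))
  · exact h2 n _ (mul_mem (mul_mem (star_mem (hz.1.1 n)) (hz.1.1 n)) (ha.1 n))

theorem mult_add {x y : Sq H} (hx : x ∈ multSeq ω M ξ) (hy : y ∈ multSeq ω M ξ) :
    x + y ∈ multSeq ω M ξ :=
  ⟨bdd_add hx.1 hy.1, fun z hz => by
    rw [add_mul, mul_add]
    exact ⟨null_add hξ (hx.2 z hz).1 (hy.2 z hz).1, null_add hξ (hx.2 z hz).2 (hy.2 z hz).2⟩⟩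

theorem mult_smul (c : ℂ) {x : Sq H} (hx : x ∈ multSeq ω M ξ) : c • x ∈ multSeq ω M ξ :=
  ⟨bdd_smul c hx.1, fun z hz => by
    rw [smul_mul_assoc, mul_smul_comm]
    exact ⟨null_smul hξ c (hx.2 z hz).1, null_smul hξ c (hx.2 z hz).2⟩⟩

theorem mult_star {x : Sq H} (hx : x ∈ multSeq ω M ξ) : star x ∈ multSeq ω M ξ :=
  ⟨bdd_star hx.1, fun z hz => by
    obtain ⟨h1, h2⟩ := hx.2 _ (null_star hξ hz)
    have h3 := null_star hξ h1
    have h4 := null_star hξ h2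
    rw [star_mul, star_star] at h3 h4
    exact ⟨h4, h3⟩⟩

theorem mult_sub {x y : Sq H} (hx : x ∈ multSeq ω M ξ) (hy : y ∈ multSeq ω M ξ) :
    x - y ∈ multSeq ω M ξ := by
  have := mult_add hξ hx (mult_smul hξ (-1) hy)
  rwa [neg_one_smul, ← sub_eq_add_neg] at this

theorem mult_sum {ι : Type*} (s : Finset ι) {f : ι → Sq H} (h : ∀ i, f i ∈ multSeq ω M ξ) :
    ∑ i ∈ s, f i ∈ multSeq ω M ξ :=
  Finset.sum_induction f (· ∈ multSeq ω M ξ) (fun _ _ => mult_add hξ)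
    (null_mult hξ (null_zero hξ)) fun i _ => h i

theorem mult_approx {x : Sq H} (hM : x ∈ bddSeq fun n => M n)
    (hx : ∀ δ : ℝ, 0 < δ → ∃ y ∈ multSeq ω M ξ, ∀ n, ‖x n - y n‖ ≤ δ) : x ∈ multSeq ω M ξ := by
  refine ⟨hM, fun z hz => ?_⟩
  obtain ⟨C, c0, hC⟩ := bdd_nonneg hz.1
  have key : ∀ δ : ℝ, 0 < δ → ∃ y ∈ multSeq ω M ξ, ∀ n, ‖x n - y n‖ * ‖z n‖ ≤ δ := by
    intro δ hδ
    obtain ⟨y, h1, h2⟩ := hx (δ / (C + 1)) (by positivity)
    refine ⟨y, h1, fun n => ?_⟩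
    have h3 := h2 n
    rw [le_div_iff₀ (by positivity)] at h3
    nlinarith [norm_nonneg (x n - y n), hC n]
  refine ⟨null_approx hξ (bdd_mul hM hz.1) fun δ hδ => ?_,
    null_approx hξ (bdd_mul hz.1 hM) fun δ hδ => ?_⟩
  · obtain ⟨y, h1, h2⟩ := key δ hδ
    refine ⟨_, (h1.2 z hz).1, .of_forall fun n => ?_⟩
    rw [← sub_mul]
    exact (norm_mul_le _ _).trans (h2 n)
  · obtain ⟨y, h1, h2⟩ := key δ hδ
    refine ⟨_, (h1.2 z hz).2, .of_forall fun n => ?_⟩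
    rw [← mul_sub]
    exact (norm_mul_le _ _).trans (by rw [mul_comm]; exact h2 n)

end Vale.Agent.N078
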